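import Vale.Agent.P139.H644.Sym3
import Vale.Agent.P139.BU.Core

/-!
# Symbol calculus, part 4: the profile, the potentials and the symmetry modes are symbols
-/

open Set Filter Topology
open scoped ContDiff ComplexConjugate

namespace Vale.Agent.P139.H644

open Vale.Agent.P139.BU

variable {d m : ℕ} {w : ℝ} {Q : E d → ℂ}

theorem isSym_of_isProfile (h : IsProfile d m w Q) : IsSym (2 * aa m) Q := by
  rw [isSym_iff]
  refine ⟨?_, h.symbol⟩
  obtain ⟨q, hq, hQ⟩ := h.radial
  have : Q = fun x => q (‖x‖ ^ 2) := funext hQ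
  rw [this]
  exact hq.comp (contDiff_norm_sq ℝ)

theorem isSym_W1 {δ : ℝ} (h : IsSym δ Q) : IsSym (2 * m * δ) (fun x => W1 m (Q x)) := by
  have h1 := (h.mul h.conj).pow m
  have e : (m : ℝ) * (δ + δ) = 2 * m * δ := by ring
  rw [e] at h1
  exact h1

theorem isSym_W2 {δ : ℝ} (hm : 1 ≤ m) (h : IsSym δ Q) :
    IsSym (2 * m * δ) (fun x => W2 m (Q x)) := by
  have h1 := (h.pow (m + 1)).mul (h.conj.pow (m - 1))
  have e : ((m + 1 : ℕ) : ℝ) * δ + ((m - 1 : ℕ) : ℝ) * δ = 2 * m * δ := by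
    rw [Nat.cast_sub hm]; push_cast; ring
  rw [e] at h1
  exact h1

theorem two_m_aa (hm : 1 ≤ m) : 2 * (m : ℝ) * (2 * aa m) = 2 := by
  have : (m : ℝ) ≠ 0 := by positivity
  unfold aa; field_simp

theorem isSym_V (hm : 1 ≤ m) (h : IsProfile d m w Q) : IsSym 2 (fun x => W1 m (Q x)) := by
  have := isSym_W1 (m := m) (isSym_of_isProfile h)
  rwa [two_m_aa hm] at this

theorem isSym_V2 (hm : 1 ≤ m) (h : IsProfile d m w Q) : IsSym 2 (fun x => W2 m (Q x)) := by
  have := isSym_W2 hm (isSym_of_isProfile h)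
  rwa [two_m_aa hm] at this

theorem isSym_pd {δ : ℝ} {f : E d → ℂ} (h : IsSym δ f) (j : Fin d) :
    IsSym (δ + 1) (pd j f) := h.grad_apply _

theorem isSym_eul {δ : ℝ} {f : E d → ℂ} (h : IsSym δ f) : IsSym δ (eul f) := h.euler

theorem isSym_lap {δ : ℝ} {f : E d → ℂ} (h : IsSym δ f) : IsSym (δ + 2) (lap f) := by
  have h1 : ∀ j ∈ (Finset.univ : Finset (Fin d)), IsSym (δ + 2) (pd j (pd j f)) := by
    intro j _
    have h2 := isSym_pd (isSym_pd h j) j
    have e : δ + 1 + 1 = δ + 2 := by ring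
    rwa [e] at h2
  exact IsSym.sum Finset.univ h1

theorem isSym_phaseMode (h : IsProfile d m w Q) : IsSym (2 * aa m) (phaseMode Q) :=
  (isSym_of_isProfile h).const_mul Complex.I

theorem isSym_timeMode (h : IsProfile d m w Q) : IsSym (2 * aa m) (timeMode m w Q) := by
  have h0 := isSym_of_isProfile h
  exact (h0.const_mul _).add ((isSym_eul h0).const_mul _)

theorem isSym_transMode (h : IsProfile d m w Q) (j : Fin d) : IsSym (2 * aa m + 1) (pd j Q) :=
  isSym_pd (isSym_of_isProfile h) j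

/-- Every symmetry mode consists of symbols of order `-2a`. -/
theorem isSym_of_isMode {lam : ℂ} {f g : E d → ℂ} (h : IsProfile d m w Q)
    (hfg : IsMode m w Q lam f g) : IsSym (2 * aa m) f ∧ IsSym (2 * aa m) g := by
  rcases hfg with ⟨_, c, hc⟩ | ⟨_, c, hc⟩ | ⟨_, c, hc⟩ | hc
  · have e1 : f = fun x => c * phaseMode Q x := funext fun x => (hc x).1
    have e2 : g = fun x => c * conj (phaseMode Q x) := funext fun x => (hc x).2
    rw [e1, e2]
    exact ⟨(isSym_phaseMode h).const_mul c, (isSym_phaseMode h).conj.const_mul c⟩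
  · have e1 : f = fun x => ∑ j, c j * pd j Q x := funext fun x => (hc x).1
    have e2 : g = fun x => ∑ j, c j * conj (pd j Q x) := funext fun x => (hc x).2
    rw [e1, e2]
    exact ⟨(IsSym.sum _ fun j _ => ((isSym_transMode h j).mono (by linarith)).const_mul (c j)),
      (IsSym.sum _ fun j _ => ((isSym_transMode h j).mono (by linarith)).conj.const_mul (c j))⟩
  · have e1 : f = fun x => c * timeMode m w Q x := funext fun x => (hc x).1
    have e2 : g = fun x => c * conj (timeMode m w Q x) := funext fun x => (hc x).2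
    rw [e1, e2]
    exact ⟨(isSym_timeMode h).const_mul c, (isSym_timeMode h).conj.const_mul c⟩
  · have e1 : f = fun _ => 0 := funext fun x => (hc x).1
    have e2 : g = fun _ => 0 := funext fun x => (hc x).2
    rw [e1, e2]
    exact ⟨IsSym.zero _, IsSym.zero _⟩

theorem aa_pos (hm : 1 ≤ m) : 0 < aa m := by
  have : (0 : ℝ) < m := by exact_mod_cast hm
  unfold aa; positivity

/-- Symbols of nonnegative order `δ ≥ 0` are bounded with all derivatives. -/
theorem bddC_of_isSym {δ : ℝ} {f : E d → ℂ} (hδ : 0 ≤ δ) (h : IsSym δ f) (K : ℕ) :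
    BddC K f := by
  refine ⟨h.contDiff.of_le (by exact_mod_cast le_top), fun k _ => ?_⟩
  obtain ⟨C, hC⟩ := h.bound k
  refine ⟨|C|, fun x => (hC x).trans ?_⟩
  have hx := one_le_one_add_norm x
  have h1 : (1 + ‖x‖) ^ (-δ - (k : ℝ)) ≤ 1 :=
    Real.rpow_le_one_of_one_le_of_nonpos hx (by have := Nat.cast_nonneg (α := ℝ) k; linarith)
  have h0 : 0 ≤ (1 + ‖x‖) ^ (-δ - (k : ℝ)) := by positivity
  have := le_abs_self C
  have := abs_nonneg C
  nlinarith

/-- The real-variable input for the profile: `Q(x) = h(‖x‖²)` with `h` smooth on `[0,∞)` and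
`‖h^{(j)}(z)‖ ≤ C_j (1+z)^{-a-j}`. -/
theorem isSym_radial {δ : ℝ} {h : ℝ → ℂ} (hh : ContDiffOn ℝ ∞ h (Ici 0))
    (hb : ∀ j : ℕ, ∃ C : ℝ, ∀ z : ℝ, 0 ≤ z →
      ‖iteratedDerivWithin j h (Ici 0) z‖ ≤ C * (1 + z) ^ (-(δ / 2) - (j : ℝ))) :
    IsSym δ (fun x : E d => h (‖x‖ ^ 2)) := by
  intro N
  choose C hC using hb
  refine ⟨_, SymN.radial (A := ∑ k ∈ Finset.range (N + 1), |C k|)
    (hh.of_le (by exact_mod_cast le_top)) fun j hj z hz => ?_⟩
  rw [norm_iteratedFDerivWithin_eq_norm_iteratedDerivWithin]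
  refine (hC j z hz).trans ?_
  have : C j ≤ ∑ k ∈ Finset.range (N + 1), |C k| :=
    (le_abs_self _).trans (Finset.single_le_sum (f := fun k => |C k|)
      (fun i _ => abs_nonneg _) (by simp; omega))
  gcongr

end Vale.Agent.P139.H644
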