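import Mathlib
import Vale.Agent.P139.BU.UP
import Vale.Agent.P139.H644.Sym4

/-!
# Potentials : derivative bounds of `W1 m ∘ Q_m`, `W2 m ∘ Q_m`, `conj (W2 m ∘ Q_m)` from `UP`
-/

open Set Filter Topology Complex
open scoped ContDiff ComplexConjugate
open Vale.Agent.P139.BU

namespace Vale.Agent.P139.H644

section general

variable {E : Type*} [NormedAddCommGroup E] [NormedSpace ℝ E] {N m : ℕ} {x : E} {α β : ℝ}
  {f : E → ℂ}

theorem PB.conj (h : PB N x α β f) : PB N x α β (fun y => conj (f y)) := by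
  intro k hk
  have e : ‖iteratedFDeriv ℝ k (fun y => conj (f y)) x‖ = ‖iteratedFDeriv ℝ k f x‖ :=
    (Complex.conjLIE : ℂ ≃ₗᵢ[ℝ] ℂ).norm_iteratedFDeriv_comp_left f x k
  rw [e]; exact h k hk

/-- The three potentials have `i`-th derivative at `x` bounded by `B`. -/
def PotBd (m : ℕ) (f : E → ℂ) (i : ℕ) (x : E) (B : ℝ) : Prop :=
  ‖iteratedFDeriv ℝ i (fun x => W1 m (f x)) x‖ ≤ B ∧
  ‖iteratedFDeriv ℝ i (fun x => W2 m (f x)) x‖ ≤ B ∧
  ‖iteratedFDeriv ℝ i (fun x => conj (W2 m (f x))) x‖ ≤ B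

theorem PotBd.mono {i : ℕ} {B B' : ℝ} (h : PotBd m f i x B) (hB : B ≤ B') : PotBd m f i x B' :=
  ⟨h.1.trans hB, h.2.1.trans hB, h.2.2.trans hB⟩

theorem PB.W1 (hf : ContDiff ℝ N f) (h : PB N x α β f) :
    PB N x (α ^ (2 * m)) (2 * m * β) (fun y => BU.W1 m (f y)) := by
  have hc : ContDiff ℝ N (fun y => conj (f y)) := Complex.conjCLE.contDiff.comp hf
  have h1 := PB.mul (hf.pow m) (hc.pow m) (h.pow hf m) (h.conj.pow hc m)
  have e : (fun y => BU.W1 m (f y)) = fun y => f y ^ m * conj (f y) ^ m := by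
    funext y; unfold BU.W1; rw [mul_pow]
  rw [e]
  have e1 : α ^ (2 * m) = α ^ m * α ^ m := by rw [← pow_add]; congr 1; ring
  have e2 : 2 * (m : ℝ) * β = (m : ℝ) * β + (m : ℝ) * β := by ring
  rw [e1, e2]
  exact h1

theorem PB.W2 (hm : 1 ≤ m) (hf : ContDiff ℝ N f) (h : PB N x α β f) :
    PB N x (α ^ (2 * m)) (2 * m * β) (fun y => BU.W2 m (f y)) := by
  have hc : ContDiff ℝ N (fun y => conj (f y)) := Complex.conjCLE.contDiff.comp hf
  have h1 := PB.mul (hf.pow (m + 1)) (hc.pow (m - 1)) (h.pow hf (m + 1)) (h.conj.pow hc (m - 1))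
  have e : (fun y => BU.W2 m (f y)) = fun y => f y ^ (m + 1) * conj (f y) ^ (m - 1) := by
    funext y; unfold BU.W2; rfl
  rw [e]
  have e1 : α ^ (2 * m) = α ^ (m + 1) * α ^ (m - 1) := by rw [← pow_add]; congr 1; omega
  have e2 : 2 * (m : ℝ) * β = ((m + 1 : ℕ) : ℝ) * β + ((m - 1 : ℕ) : ℝ) * β := by
    rw [Nat.cast_sub hm]; push_cast; ring
  rw [e1, e2]
  exact h1

theorem potBd_of_pb (hm : 1 ≤ m) (hf : ContDiff ℝ N f) (h : PB N x α β f) {i : ℕ} (hi : i ≤ N) :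
    PotBd m f i x (α ^ (2 * m) * (2 * m * β) ^ i) :=
  ⟨h.W1 hf i hi, h.W2 hm hf i hi, (h.W2 hm hf).conj i hi⟩

end general

variable {d : ℕ} {B : Set (ℝ × ℝ)} {m0 : ℕ} {w R : ℕ → ℝ} {q : ℕ → ℝ → ℂ}

/-- Polynomials are absorbed by exponentials. -/
theorem exists_pow_mul_exp_le {c : ℝ} (hc : 0 < c) (D : ℝ) (p : ℕ) :
    ∃ A > 0, ∀ m : ℕ, D * (m : ℝ) ^ p * Real.exp (-(2 * (c * m))) ≤ A * Real.exp (-(c * m)) := by
  refine ⟨|D| * (p.factorial / c ^ p) + 1, by positivity, fun m => ?_⟩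
  have hcm : 0 ≤ c * m := by positivity
  have h1 := Real.pow_div_factorial_le_exp (c * m) hcm p
  have h2 : (m : ℝ) ^ p ≤ p.factorial / c ^ p * Real.exp (c * m) := by
    rw [mul_pow, div_le_iff₀ (by positivity)] at h1
    rw [div_mul_eq_mul_div, le_div_iff₀ (by positivity)]
    calc (m : ℝ) ^ p * c ^ p = c ^ p * (m : ℝ) ^ p := by ring
      _ ≤ _ := h1
      _ = _ := by ring
  have e : Real.exp (-(2 * (c * m))) = Real.exp (-(c * m)) * Real.exp (-(c * m)) := by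
    rw [← Real.exp_add]; congr 1; ring
  have e2 : Real.exp (c * m) * Real.exp (-(c * m)) = 1 := by
    rw [← Real.exp_add]; simp
  calc D * (m : ℝ) ^ p * Real.exp (-(2 * (c * m)))
      ≤ |D| * (m : ℝ) ^ p * Real.exp (-(2 * (c * m))) := by
        gcongr; exact le_abs_self D
    _ ≤ |D| * (p.factorial / c ^ p * Real.exp (c * m)) * Real.exp (-(2 * (c * m))) := by gcongr
    _ = |D| * (p.factorial / c ^ p) * (Real.exp (c * m) * Real.exp (-(c * m)))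
        * Real.exp (-(c * m)) := by rw [e]; ring
    _ = |D| * (p.factorial / c ^ p) * Real.exp (-(c * m)) := by rw [e2]; ring
    _ ≤ _ := by
      have := Real.exp_pos (-(c * m))
      nlinarith

theorem contDiff_q (h : UP d B m0 w R q) {m : ℕ} (hm : m0 ≤ m) (N : ℕ) :
    ContDiff ℝ N (fun x : E d => q m ‖x‖) :=
  (isSym_iff.1 (isSym_of_isProfile (h.prof m hm))).1.of_le (by exact_mod_cast le_top)

/-- **(D4b)** exponentially small potentials beyond `R m + η`. -/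
theorem pot_tail (h : UP d B m0 w R q) {η : ℝ} (hη : 0 < η) :
    ∃ c > 0, ∀ k : ℕ, ∃ A > 0, ∃ m1 : ℕ, ∀ m, m1 ≤ m → ∀ i ≤ k, ∀ x : E d, R m + η ≤ ‖x‖ →
      PotBd m (fun x : E d => q m ‖x‖) i x
        (A * Real.exp (-(c * m)) * (1 + ‖x‖) ^ (-2 - (i : ℝ))) := by
  obtain ⟨θ, hθ, hθ1, m2, hout⟩ := h.out η hη
  have hc : 0 < -Real.log θ := by
    have := Real.log_neg hθ hθ1
    linarith
  refine ⟨-Real.log θ, hc, fun k => ?_⟩
  obtain ⟨C, K, hsymb⟩ := h.symb k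
  obtain ⟨A, hA, hAm⟩ := exists_pow_mul_exp_le hc ((2 * (|C| / θ + 1)) ^ k) ((K + 1) * k)
  refine ⟨A, hA, max m0 m2, fun m hm i hi x hx => ?_⟩
  have hm0 : m0 ≤ m := (le_max_left _ _).trans hm
  have hm2 : m2 ≤ m := (le_max_right _ _).trans hm
  have hm1 : 1 ≤ m := h.m0_pos.trans hm0
  have hmR : (1 : ℝ) ≤ m := by exact_mod_cast hm1
  have hpos : 0 < 1 + ‖x‖ := one_add_norm_pos x
  set t : ℝ := |C| * (m : ℝ) ^ K / θ with ht
  have ht0 : 0 ≤ t := by positivity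
  have hPB : PB k x (θ * (1 + ‖x‖) ^ (-(2 * aa m))) ((t + 1) * (1 + ‖x‖)⁻¹)
      (fun x : E d => q m ‖x‖) := by
    intro j hj
    rcases Nat.eq_zero_or_pos j with rfl | hj0
    · simpa using hout m hm2 ‖x‖ hx
    · have h1 := hsymb m hm0 j hj x
      have h2 : C * (m : ℝ) ^ K ≤ θ * (t + 1) ^ j := by
        have h3 : t + 1 ≤ (t + 1) ^ j := le_self_pow₀ (by linarith) (by omega)
        have h4 : θ * t = |C| * (m : ℝ) ^ K := by rw [ht]; field_simp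
        have h5 : C * (m : ℝ) ^ K ≤ |C| * (m : ℝ) ^ K := by gcongr; exact le_abs_self C
        have h6 : θ * t ≤ θ * (t + 1) ^ j := by gcongr; linarith
        linarith
      rw [rpow_split] at h1
      refine h1.trans ?_
      have h7 : 0 ≤ (1 + ‖x‖) ^ (-(2 * aa m)) * ((1 + ‖x‖)⁻¹) ^ j := by positivity
      calc C * (m : ℝ) ^ K * ((1 + ‖x‖) ^ (-(2 * aa m)) * ((1 + ‖x‖)⁻¹) ^ j)
          ≤ θ * (t + 1) ^ j * ((1 + ‖x‖) ^ (-(2 * aa m)) * ((1 + ‖x‖)⁻¹) ^ j) :=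
            mul_le_mul_of_nonneg_right h2 h7
        _ = _ := by rw [mul_pow]; ring
  refine (potBd_of_pb hm1 (contDiff_q h hm0 k) hPB hi).mono ?_
  -- the constants
  have e1 : (θ * (1 + ‖x‖) ^ (-(2 * aa m))) ^ (2 * m)
      = Real.exp (-(2 * (-Real.log θ * m))) * (1 + ‖x‖) ^ (-2 : ℝ) := by
    rw [mul_pow]
    congr 1
    · rw [← Real.rpow_natCast, Real.rpow_def_of_pos hθ]
      congr 1; push_cast; ring
    · rw [← Real.rpow_natCast, ← Real.rpow_mul hpos.le]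
      congr 1
      push_cast
      have := two_m_aa hm1
      linarith
  have e2 : (2 * (m : ℝ) * ((t + 1) * (1 + ‖x‖)⁻¹)) ^ i
      = (2 * (m : ℝ) * (t + 1)) ^ i * ((1 + ‖x‖)⁻¹) ^ i := by
    rw [← mul_pow]; congr 1; ring
  have e3 : (2 * (m : ℝ) * (t + 1)) ^ i ≤ (2 * (|C| / θ + 1)) ^ k * (m : ℝ) ^ ((K + 1) * k) := by
    have hmK : (1 : ℝ) ≤ (m : ℝ) ^ K := one_le_pow₀ hmR
    have h1 : t + 1 ≤ (|C| / θ + 1) * (m : ℝ) ^ K := by
      rw [ht, add_mul, one_mul, div_mul_eq_mul_div]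
      linarith
    have h0 : 0 ≤ |C| / θ := by positivity
    have h2 : 2 * (m : ℝ) * (t + 1) ≤ 2 * (|C| / θ + 1) * (m : ℝ) ^ (K + 1) := by
      calc 2 * (m : ℝ) * (t + 1) ≤ 2 * (m : ℝ) * ((|C| / θ + 1) * (m : ℝ) ^ K) := by gcongr
        _ = _ := by ring
    have h3 : (1 : ℝ) ≤ 2 * (|C| / θ + 1) * (m : ℝ) ^ (K + 1) := by
      have h5 : (1 : ℝ) ≤ (m : ℝ) ^ (K + 1) := one_le_pow₀ hmR
      have h4 : (1 : ℝ) ≤ 2 * (|C| / θ + 1) := by linarith
      nlinarith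
    calc (2 * (m : ℝ) * (t + 1)) ^ i ≤ (2 * (|C| / θ + 1) * (m : ℝ) ^ (K + 1)) ^ i := by gcongr
      _ ≤ (2 * (|C| / θ + 1) * (m : ℝ) ^ (K + 1)) ^ k := pow_le_pow_right₀ h3 hi
      _ = _ := by rw [mul_pow, ← pow_mul]
  have e4 : (1 + ‖x‖) ^ (-2 - (i : ℝ)) = (1 + ‖x‖) ^ (-2 : ℝ) * ((1 + ‖x‖)⁻¹) ^ i :=
    rpow_split x 2 i
  rw [e1, e2, e4]
  have hw : 0 ≤ (1 + ‖x‖) ^ (-2 : ℝ) * ((1 + ‖x‖)⁻¹) ^ i := by positivity
  calc Real.exp (-(2 * (-Real.log θ * m))) * (1 + ‖x‖) ^ (-2 : ℝ)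
        * ((2 * (m : ℝ) * (t + 1)) ^ i * ((1 + ‖x‖)⁻¹) ^ i)
      = ((2 * (m : ℝ) * (t + 1)) ^ i * Real.exp (-(2 * (-Real.log θ * m))))
        * ((1 + ‖x‖) ^ (-2 : ℝ) * ((1 + ‖x‖)⁻¹) ^ i) := by ring
    _ ≤ (((2 * (|C| / θ + 1)) ^ k * (m : ℝ) ^ ((K + 1) * k))
        * Real.exp (-(2 * (-Real.log θ * m)))) * ((1 + ‖x‖) ^ (-2 : ℝ) * ((1 + ‖x‖)⁻¹) ^ i) := by
        gcongr
    _ ≤ (A * Real.exp (-(-Real.log θ * m))) * ((1 + ‖x‖) ^ (-2 : ℝ) * ((1 + ‖x‖)⁻¹) ^ i) :=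
        mul_le_mul_of_nonneg_right (hAm m) hw

/-- **(D4a/D4c)** global bounds of the potentials, polynomial in `m`, for all `m ≥ m0`. -/
theorem pot_global (h : UP d B m0 w R q) (k : ℕ) :
    ∃ A : ℕ, ∀ m, m0 ≤ m → ∀ i ≤ k, ∀ x : E d,
      PotBd m (fun x : E d => q m ‖x‖) i x
        ((A : ℝ) * (m : ℝ) ^ A * (1 + ‖x‖) ^ (-2 - (i : ℝ))) := by
  -- tail
  obtain ⟨c, hc, htail⟩ := pot_tail h one_pos
  obtain ⟨A1, hA1, m1, htail⟩ := htail k
  -- bounded region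
  obtain ⟨R1, hR1, R2, hR⟩ := h.Rbd
  have hb : 0 < |R2| + 1 := by positivity
  set b : ℝ := |R2| + 1 with hbdef
  obtain ⟨c0, hc0, C0, m2, hbd⟩ := h.bd b hb
  obtain ⟨C, K, hsymb⟩ := h.symb k
  set D : ℝ := |C0| * (2 * (|C| / c0 + 1)) ^ k * (1 + b) ^ (2 + k) with hD
  have hnear : ∀ m, max m0 m2 ≤ m → ∀ i ≤ k, ∀ x : E d, ‖x‖ ≤ b →
      PotBd m (fun x : E d => q m ‖x‖) i x
        (D * (m : ℝ) ^ ((K + 1) * k) * (1 + ‖x‖) ^ (-2 - (i : ℝ))) := by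
    intro m hm i hi x hx
    have hm0 : m0 ≤ m := (le_max_left _ _).trans hm
    have hm2 : m2 ≤ m := (le_max_right _ _).trans hm
    have hm1 : 1 ≤ m := h.m0_pos.trans hm0
    have hmR : (1 : ℝ) ≤ m := by exact_mod_cast hm1
    have hpos : 0 < 1 + ‖x‖ := one_add_norm_pos x
    have hone : 1 ≤ 1 + ‖x‖ := one_le_one_add_norm x
    -- bounds for `q` at `‖x‖`, including the origin
    have hq : c0 ≤ ‖q m ‖x‖‖ ∧ ‖q m ‖x‖‖ ^ (2 * m) ≤ C0 := by
      obtain ⟨g, hg, hqg⟩ := h.rad m hm0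
      have hcont : Continuous (q m) := by
        have : q m = fun r => g (r ^ 2) := funext hqg
        rw [this]
        exact hg.continuous.comp (by fun_prop)
      have hcl : ‖x‖ ∈ closure (Ioc 0 b) := by
        rw [closure_Ioc hb.ne]; exact ⟨norm_nonneg _, hx⟩
      have hclosed : IsClosed {r : ℝ | c0 ≤ ‖q m r‖ ∧ ‖q m r‖ ^ (2 * m) ≤ C0} :=
        (isClosed_le continuous_const hcont.norm).inter
          (isClosed_le (hcont.norm.pow _) continuous_const)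
      have hsub : Ioc 0 b ⊆ {r : ℝ | c0 ≤ ‖q m r‖ ∧ ‖q m r‖ ^ (2 * m) ≤ C0} :=
        fun r hr => ⟨(hbd m hm2 r hr).1, (hbd m hm2 r hr).2.2.2.2⟩
      exact closure_minimal hsub hclosed hcl
    set t : ℝ := |C| * (m : ℝ) ^ K / c0 with ht
    have ht0 : 0 ≤ t := by positivity
    have hPB : PB k x ‖q m ‖x‖‖ (t + 1) (fun x : E d => q m ‖x‖) := by
      intro j hj
      rcases Nat.eq_zero_or_pos j with rfl | hj0
      · simp
      · have h1 := hsymb m hm0 j hj x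
        have h3 : t + 1 ≤ (t + 1) ^ j := le_self_pow₀ (by linarith) (by omega)
        have h4 : c0 * t = |C| * (m : ℝ) ^ K := by rw [ht]; field_simp
        have h5 : C * (m : ℝ) ^ K * (1 + ‖x‖) ^ (-(2 * aa m) - (j : ℝ)) ≤ |C| * (m : ℝ) ^ K := by
          have t1 : (1 + ‖x‖) ^ (-(2 * aa m) - (j : ℝ)) ≤ 1 := by
            apply Real.rpow_le_one_of_one_le_of_nonpos hone
            have := aa_pos hm1
            have := Nat.cast_nonneg (α := ℝ) j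
            linarith
          have t2 : 0 ≤ (1 + ‖x‖) ^ (-(2 * aa m) - (j : ℝ)) := by positivity
          calc C * (m : ℝ) ^ K * (1 + ‖x‖) ^ (-(2 * aa m) - (j : ℝ))
              ≤ |C| * (m : ℝ) ^ K * (1 + ‖x‖) ^ (-(2 * aa m) - (j : ℝ)) := by
                gcongr; exact le_abs_self C
            _ ≤ |C| * (m : ℝ) ^ K * 1 := by gcongr
            _ = _ := mul_one _
        refine h1.trans (h5.trans ?_)
        rw [← h4]
        have h6 : t ≤ (t + 1) ^ j := by linarith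
        exact mul_le_mul hq.1 h6 ht0 (norm_nonneg _)
    refine (potBd_of_pb hm1 (contDiff_q h hm0 k) hPB hi).mono ?_
    have e3 : (2 * (m : ℝ) * (t + 1)) ^ i ≤ (2 * (|C| / c0 + 1)) ^ k * (m : ℝ) ^ ((K + 1) * k) := by
      have hmK : (1 : ℝ) ≤ (m : ℝ) ^ K := one_le_pow₀ hmR
      have h1 : t + 1 ≤ (|C| / c0 + 1) * (m : ℝ) ^ K := by
        rw [ht, add_mul, one_mul, div_mul_eq_mul_div]
        linarith
      have h0 : 0 ≤ |C| / c0 := by positivity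
      have h2 : 2 * (m : ℝ) * (t + 1) ≤ 2 * (|C| / c0 + 1) * (m : ℝ) ^ (K + 1) := by
        calc 2 * (m : ℝ) * (t + 1) ≤ 2 * (m : ℝ) * ((|C| / c0 + 1) * (m : ℝ) ^ K) := by gcongr
          _ = _ := by ring
      have h3 : (1 : ℝ) ≤ 2 * (|C| / c0 + 1) * (m : ℝ) ^ (K + 1) := by
        have h5 : (1 : ℝ) ≤ (m : ℝ) ^ (K + 1) := one_le_pow₀ hmR
        have h4 : (1 : ℝ) ≤ 2 * (|C| / c0 + 1) := by linarith
        nlinarith
      calc (2 * (m : ℝ) * (t + 1)) ^ i ≤ (2 * (|C| / c0 + 1) * (m : ℝ) ^ (K + 1)) ^ i := by gcongr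
        _ ≤ (2 * (|C| / c0 + 1) * (m : ℝ) ^ (K + 1)) ^ k := pow_le_pow_right₀ h3 hi
        _ = _ := by rw [mul_pow, ← pow_mul]
    -- weight
    have hwt : (1 : ℝ) ≤ (1 + b) ^ (2 + k) * (1 + ‖x‖) ^ (-2 - (i : ℝ)) := by
      have h1 : (1 + ‖x‖) ^ ((2 : ℝ) + i) ≤ (1 + b) ^ (2 + k) := by
        calc (1 + ‖x‖) ^ ((2 : ℝ) + i) ≤ (1 + ‖x‖) ^ (((2 + k : ℕ) : ℝ)) := by
              apply Real.rpow_le_rpow_of_exponent_le hone
              have : (i : ℝ) ≤ k := by exact_mod_cast hi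
              push_cast; linarith
          _ = (1 + ‖x‖) ^ (2 + k) := Real.rpow_natCast _ _
          _ ≤ _ := by gcongr
      have e : (-2 - (i : ℝ)) = -((2 : ℝ) + i) := by ring
      rw [e, Real.rpow_neg hpos.le, ← div_eq_mul_inv, le_div_iff₀ (by positivity)]
      linarith
    have hC0 : ‖q m ‖x‖‖ ^ (2 * m) ≤ |C0| := hq.2.trans (le_abs_self _)
    calc ‖q m ‖x‖‖ ^ (2 * m) * (2 * (m : ℝ) * (t + 1)) ^ i
        ≤ |C0| * ((2 * (|C| / c0 + 1)) ^ k * (m : ℝ) ^ ((K + 1) * k)) := by gcongr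
      _ ≤ (|C0| * ((2 * (|C| / c0 + 1)) ^ k * (m : ℝ) ^ ((K + 1) * k)))
          * ((1 + b) ^ (2 + k) * (1 + ‖x‖) ^ (-2 - (i : ℝ))) :=
          le_mul_of_one_le_right (by positivity) hwt
      _ = _ := by rw [hD]; ring
  have hD0 : 0 ≤ D := by rw [hD]; positivity
  -- small `m`
  set m3 := max m0 (max m1 m2) with hm3
  have hsmall : ∀ m, m0 ≤ m → ∃ C : ℝ, 0 ≤ C ∧ ∀ i ≤ k, ∀ x : E d,
      PotBd m (fun x : E d => q m ‖x‖) i x (C * (1 + ‖x‖) ^ (-2 - (i : ℝ))) := by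
    intro m hm
    have hm1 : 1 ≤ m := h.m0_pos.trans hm
    have s1 := isSym_V hm1 (h.prof m hm)
    have s2 := isSym_V2 hm1 (h.prof m hm)
    have s3 := s2.conj
    have b1 := s1.bound
    have b2 := s2.bound
    have b3 := s3.bound
    choose D1 hD1 using b1
    choose D2 hD2 using b2
    choose D3 hD3 using b3
    refine ⟨∑ i ∈ Finset.range (k + 1), (|D1 i| + |D2 i| + |D3 i|), by positivity,
      fun i hi x => ?_⟩
    have hw : 0 ≤ (1 + ‖x‖) ^ (-2 - (i : ℝ)) := by positivity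
    have hle : |D1 i| + |D2 i| + |D3 i|
        ≤ ∑ i ∈ Finset.range (k + 1), (|D1 i| + |D2 i| + |D3 i|) :=
      Finset.single_le_sum (f := fun i => |D1 i| + |D2 i| + |D3 i|)
        (fun i _ => by positivity) (Finset.mem_range.2 (by omega))
    have a1 := le_abs_self (D1 i)
    have a2 := le_abs_self (D2 i)
    have a3 := le_abs_self (D3 i)
    have p1 := abs_nonneg (D1 i)
    have p2 := abs_nonneg (D2 i)
    have p3 := abs_nonneg (D3 i)
    exact ⟨(hD1 i x).trans (mul_le_mul_of_nonneg_right (by linarith) hw),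
      (hD2 i x).trans (mul_le_mul_of_nonneg_right (by linarith) hw),
      (hD3 i x).trans (mul_le_mul_of_nonneg_right (by linarith) hw)⟩
  choose! S hS0 hS using hsmall
  set T : ℝ := A1 + D + ∑ m ∈ Finset.range m3, |S m| with hT
  obtain ⟨n0, hn0⟩ := exists_nat_ge T
  refine ⟨n0 + (K + 1) * k, fun m hm i hi x => ?_⟩
  have hm1' : 1 ≤ m := h.m0_pos.trans hm
  have hmR : (1 : ℝ) ≤ m := by exact_mod_cast hm1'
  have hsum0 : 0 ≤ ∑ m ∈ Finset.range m3, |S m| := Finset.sum_nonneg fun _ _ => abs_nonneg _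
  have hw : 0 ≤ (1 + ‖x‖) ^ (-2 - (i : ℝ)) := by positivity
  have hTA : T ≤ ((n0 + (K + 1) * k : ℕ) : ℝ) := by
    refine hn0.trans ?_
    exact_mod_cast Nat.le_add_right _ _
  have hTm : T * (m : ℝ) ^ ((K + 1) * k)
      ≤ ((n0 + (K + 1) * k : ℕ) : ℝ) * (m : ℝ) ^ (n0 + (K + 1) * k) := by
    have h1 : (m : ℝ) ^ ((K + 1) * k) ≤ (m : ℝ) ^ (n0 + (K + 1) * k) :=
      pow_le_pow_right₀ hmR (by omega)
    gcongr
  have hmp : (1 : ℝ) ≤ (m : ℝ) ^ ((K + 1) * k) := one_le_pow₀ hmR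
  rcases Nat.lt_or_ge m m3 with hlt | hge
  · refine (hS m hm i hi x).mono (mul_le_mul_of_nonneg_right ?_ hw)
    have h1 : S m ≤ ∑ m ∈ Finset.range m3, |S m| :=
      (le_abs_self _).trans (Finset.single_le_sum (f := fun i => |S i|)
        (fun i _ => abs_nonneg _) (Finset.mem_range.2 hlt))
    have h2 : S m ≤ T := by rw [hT]; linarith
    have hT0 : 0 ≤ T := by rw [hT]; positivity
    exact (h2.trans (le_mul_of_one_le_right hT0 hmp)).trans hTm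
  · have hge1 : m1 ≤ m := ((le_max_left _ _).trans (le_max_right _ _)).trans hge
    have hge2 : max m0 m2 ≤ m :=
      max_le hm (((le_max_right _ _).trans (le_max_right _ _)).trans hge)
    rcases le_total ‖x‖ b with hxb | hxb
    · refine (hnear m hge2 i hi x hxb).mono (mul_le_mul_of_nonneg_right ?_ hw)
      have h2 : D ≤ T := by rw [hT]; linarith
      exact (mul_le_mul_of_nonneg_right h2 (by positivity)).trans hTm
    · have hRm : R m + 1 ≤ ‖x‖ := by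
        have := (hR m hm).2
        have h3 := le_abs_self R2
        linarith
      refine (htail m hge1 i hi x hRm).mono (mul_le_mul_of_nonneg_right ?_ hw)
      have h2 : A1 ≤ T := by rw [hT]; linarith
      have h3 : Real.exp (-(c * m)) ≤ 1 := by
        rw [Real.exp_le_one_iff]
        have : 0 ≤ c * m := by positivity
        linarith
      have hT0 : 0 ≤ T := by rw [hT]; positivity
      calc A1 * Real.exp (-(c * m)) ≤ A1 * 1 := by gcongr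
        _ ≤ T := by rw [mul_one]; exact h2
        _ ≤ T * (m : ℝ) ^ ((K + 1) * k) := le_mul_of_one_le_right hT0 hmp
        _ ≤ _ := hTm

end Vale.Agent.P139.H644
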