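import Mathlib
import Vale.Agent.P139.BU.Core
import Vale.Agent.P139.H730.RS1

/-!
# Assembly of the profile from one dimensional data

* radial calculus for `x ↦ h (‖x‖²)`;
* gluing of smooth functions of `z = ‖x‖²`;
* `isProfile_of_z` : the profile from the equation in the variable `z = r²`;
* `isProfile_of_radial` : the profile from the radial equation in `r`;
* symbol bounds of the far field from analyticity in a half plane.
-/

open Set Filter Topology Complex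
open scoped ContDiff ComplexConjugate RealInnerProductSpace
open Vale.Agent.P139.BU

namespace Vale.Agent.P139.H644

variable {d m : ℕ}

/-! ### Radial calculus -/

theorem hasFDerivAt_radial {h : ℝ → ℂ} {h' : ℂ} {x : E d} (hh : HasDerivAt h h' (‖x‖ ^ 2)) :
    HasFDerivAt (fun y : E d => h (‖y‖ ^ 2))
      (((ContinuousLinearMap.toSpanSingleton ℝ h').comp (2 • innerSL ℝ x))) x :=
  HasFDerivAt.comp (g := h) (f := fun y : E d => ‖y‖ ^ 2) x hh.hasFDerivAt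
    (hasStrictFDerivAt_norm_sq x).hasFDerivAt

theorem fderiv_radial_apply {h : ℝ → ℂ} {h' : ℂ} {x : E d} (hh : HasDerivAt h h' (‖x‖ ^ 2))
    (v : E d) : fderiv ℝ (fun y : E d => h (‖y‖ ^ 2)) x v = 2 * ((⟪x, v⟫ : ℝ) : ℂ) * h' := by
  rw [(hasFDerivAt_radial hh).fderiv]
  simp [ContinuousLinearMap.toSpanSingleton_apply]
  ring

theorem pd_radial {h : ℝ → ℂ} {h' : ℂ} {x : E d} (hh : HasDerivAt h h' (‖x‖ ^ 2)) (j : Fin d) :
    pd j (fun y : E d => h (‖y‖ ^ 2)) x = 2 * ((x j : ℝ) : ℂ) * h' := by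
  unfold pd
  rw [fderiv_radial_apply hh]
  simp [EuclideanSpace.inner_single_right]

theorem eul_radial {h : ℝ → ℂ} {h' : ℂ} {x : E d} (hh : HasDerivAt h h' (‖x‖ ^ 2)) :
    eul (fun y : E d => h (‖y‖ ^ 2)) x = 2 * ((‖x‖ ^ 2 : ℝ) : ℂ) * h' := by
  unfold eul
  rw [fderiv_radial_apply hh, real_inner_self_eq_norm_sq]

theorem pd_pd_radial {h h1 : ℝ → ℂ} {h2 : ℂ} {x : E d} (hh : ∀ z, HasDerivAt h (h1 z) z)
    (hh1 : HasDerivAt h1 h2 (‖x‖ ^ 2)) (j : Fin d) :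
    pd j (pd j (fun y : E d => h (‖y‖ ^ 2))) x
      = 2 * h1 (‖x‖ ^ 2) + 4 * (((x j) ^ 2 : ℝ) : ℂ) * h2 := by
  have e : pd j (fun y : E d => h (‖y‖ ^ 2)) = fun y : E d => (2 * ((y j : ℝ) : ℂ)) * h1 (‖y‖ ^ 2) :=
    funext fun y => pd_radial (hh _) j
  rw [e]
  have hc : HasFDerivAt (fun y : E d => (2 * ((y j : ℝ) : ℂ)))
      ((2 : ℂ) • (Complex.ofRealCLM.comp (EuclideanSpace.proj (𝕜 := ℝ) j : E d →L[ℝ] ℝ))) x := by
    have h0 : HasFDerivAt (fun y : E d => ((y j : ℝ) : ℂ))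
        (Complex.ofRealCLM.comp (EuclideanSpace.proj (𝕜 := ℝ) j : E d →L[ℝ] ℝ)) x :=
      (Complex.ofRealCLM.comp (EuclideanSpace.proj (𝕜 := ℝ) j : E d →L[ℝ] ℝ)).hasFDerivAt
    exact h0.const_mul (2 : ℂ)
  have hp : HasFDerivAt (fun y : E d => (2 * ((y j : ℝ) : ℂ)) * h1 (‖y‖ ^ 2)) _ x :=
    hc.mul (hasFDerivAt_radial hh1)
  unfold pd
  rw [hp.fderiv]
  simp [EuclideanSpace.inner_single_right, ContinuousLinearMap.toSpanSingleton_apply]
  ring

theorem lap_radial {h h1 : ℝ → ℂ} {h2 : ℂ} {x : E d} (hh : ∀ z, HasDerivAt h (h1 z) z)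
    (hh1 : HasDerivAt h1 h2 (‖x‖ ^ 2)) :
    lap (fun y : E d => h (‖y‖ ^ 2)) x
      = 4 * ((‖x‖ ^ 2 : ℝ) : ℂ) * h2 + 2 * (d : ℂ) * h1 (‖x‖ ^ 2) := by
  unfold lap
  simp_rw [pd_pd_radial hh hh1]
  have e : ∑ j, 4 * (((x j) ^ 2 : ℝ) : ℂ) * h2 = 4 * ((‖x‖ ^ 2 : ℝ) : ℂ) * h2 := by
    rw [EuclideanSpace.real_norm_sq_eq, ← Finset.sum_mul, ← Finset.mul_sum, Complex.ofReal_sum]
  rw [Finset.sum_add_distrib, e]
  simp
  ring

/-! ### Gluing -/

theorem glue_contDiff {F : Type*} [NormedAddCommGroup F] [NormedSpace ℝ F] {n : ℕ∞ω}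
    {h0 g : ℝ → F} {z1 z2 : ℝ} (h12 : z1 < z2) (hs : ContDiffOn ℝ n h0 (Iio z2))
    (gs : ContDiffOn ℝ n g (Ioi z1)) (heq : ∀ z ∈ Ioo z1 z2, h0 z = g z) :
    ∃ h : ℝ → F, ContDiff ℝ n h ∧ (∀ z < z2, h z = h0 z) ∧ (∀ z > z1, h z = g z) := by
  classical
  set h : ℝ → F := fun z => if z < z2 then h0 z else g z with hdef
  have e0 : ∀ z < z2, h z = h0 z := fun z hz => by simp [hdef, hz]
  have e1 : ∀ z > z1, h z = g z := by
    intro z hz
    by_cases h2 : z < z2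
    · rw [e0 z h2]; exact heq z ⟨hz, h2⟩
    · simp [hdef, h2]
  refine ⟨h, ?_, e0, e1⟩
  rw [contDiff_iff_contDiffAt]
  intro z
  by_cases h2 : z < z2
  · have : h =ᶠ[𝓝 z] h0 := by
      filter_upwards [Iio_mem_nhds h2] with y hy using e0 y hy
    exact (hs.contDiffAt (Iio_mem_nhds h2)).congr_of_eventuallyEq this
  · have h3 : z1 < z := lt_of_lt_of_le h12 (not_lt.1 h2)
    have : h =ᶠ[𝓝 z] g := by
      filter_upwards [Ioi_mem_nhds h3] with y hy using e1 y hy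
    exact (gs.contDiffAt (Ioi_mem_nhds h3)).congr_of_eventuallyEq this

/-! ### The profile from the equation in `z` -/

theorem aa_nonneg (m : ℕ) : 0 ≤ aa m := by unfold aa; positivity

theorem isProfile_of_z {w : ℝ} {h : ℝ → ℂ} (hh : ContDiff ℝ ∞ h)
    (heq : ∀ z : ℝ, 0 ≤ z → 4 * (z : ℂ) * deriv (deriv h) z + (2 * (d : ℂ) + I * z) * deriv h z
      + ((w : ℂ) + I * (aa m : ℂ)) * h z = W1 m (h z) * h z)
    (hne : ∀ z : ℝ, 0 ≤ z → h z ≠ 0) {z0 : ℝ} (hz0 : 0 < z0)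
    (hsym : ∀ j : ℕ, ∃ C : ℝ, ∀ z : ℝ, z0 ≤ z → ‖iteratedDeriv j h z‖ ≤ C * z ^ (-(aa m) - (j : ℝ))) :
    IsProfile d m w (fun x => h (‖x‖ ^ 2)) := by
  have hd0 : Differentiable ℝ h := hh.differentiable (by simp)
  have hh1 : ContDiff ℝ ∞ (deriv h) := by
    have := (contDiff_infty_iff_deriv (𝕜 := ℝ)).1 hh
    exact this.2
  have hd1 : Differentiable ℝ (deriv h) := hh1.differentiable (by simp)
  refine ⟨⟨h, hh, fun x => rfl⟩, fun x => ?_, fun x => hne _ (by positivity), fun k => ?_⟩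
  · rw [lap_radial (fun z => (hd0 z).hasDerivAt) (hd1 (‖x‖ ^ 2)).hasDerivAt,
      eul_radial (hd0 (‖x‖ ^ 2)).hasDerivAt]
    have := heq (‖x‖ ^ 2) (by positivity)
    rw [← this]
    ring
  · choose C hC using hsym
    have hA : ∀ j ≤ k, ∀ z, z0 ≤ z →
        ‖iteratedDeriv j h z‖ ≤ (∑ i ∈ Finset.range (k + 1), |C i|) * z ^ (-(2 * aa m) / 2 - (j : ℝ)) := by
      intro j hj z hz
      have e : -(2 * aa m) / 2 - (j : ℝ) = -(aa m) - (j : ℝ) := by ring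
      rw [e]
      refine (hC j z hz).trans ?_
      have hz' : 0 < z := lt_of_lt_of_le hz0 hz
      have h1 : C j ≤ ∑ i ∈ Finset.range (k + 1), |C i| :=
        (le_abs_self _).trans (Finset.single_le_sum (f := fun i => |C i|)
          (fun i _ => abs_nonneg _) (Finset.mem_range.2 (by omega)))
      gcongr
    obtain ⟨_, C', _, hC'⟩ := H730.radial_symbol_global (E := E d) hz0
      (δ := 2 * aa m) (by have := aa_nonneg m; linarith)
      (hh.contDiffOn.of_le (by exact_mod_cast le_top)) hA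
    exact ⟨C', fun x => hC' k le_rfl x⟩

end Vale.Agent.P139.H644
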