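import Mathlib
import Vale.Agent.P139.H644.PAsm

/-!
# Assembly of the profile, second part : the radial equation and the far field
-/

open Set Filter Topology Complex
open scoped ContDiff ComplexConjugate
open Vale.Agent.P139.BU

namespace Vale.Agent.P139.H644

variable {d m : ℕ}

/-! ### Bootstrapping -/

/-- Right-hand side of the radial equation. -/
noncomputable def radRHS (d m : ℕ) (w r : ℝ) (Q P : ℂ) : ℂ :=
  -(((((d : ℝ) - 1) / r : ℝ) : ℂ) + I * ((r / 2 : ℝ) : ℂ)) * P - ((w : ℂ) + I * (aa m : ℂ)) * Q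
    + W1 m Q * Q

theorem contDiff_W1 (m : ℕ) : ContDiff ℝ ∞ (W1 m) := by
  unfold W1
  exact ContDiff.pow (contDiff_id.mul Complex.conjCLE.contDiff) m

theorem contDiffOn_radRHS {w : ℝ} {s : Set ℝ} (h0 : ∀ r ∈ s, r ≠ 0) {n : ℕ} {Q P : ℝ → ℂ}
    (hQ : ContDiffOn ℝ n Q s) (hP : ContDiffOn ℝ n P s) :
    ContDiffOn ℝ n (fun r => radRHS d m w r (Q r) (P r)) s := by
  unfold radRHS
  have hW : ContDiffOn ℝ n (fun r => W1 m (Q r)) s :=
    ((contDiff_W1 m).of_le (by exact_mod_cast le_top)).comp_contDiffOn hQ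
  have h1 : ContDiffOn ℝ n (fun r : ℝ => ((((d : ℝ) - 1) / r : ℝ) : ℂ)) s := by
    have : ContDiffOn ℝ n (fun r : ℝ => ((d : ℝ) - 1) / r) s :=
      contDiffOn_const.div contDiffOn_id h0
    exact Complex.ofRealCLM.contDiff.comp_contDiffOn this
  have h2 : ContDiffOn ℝ n (fun r : ℝ => ((r / 2 : ℝ) : ℂ)) s :=
    Complex.ofRealCLM.contDiff.comp_contDiffOn (contDiffOn_id.div_const 2)
  exact (((h1.add (contDiffOn_const.mul h2)).neg.mul hP).sub (contDiffOn_const.mul hQ)).add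
    (hW.mul hQ)

theorem contDiffOn_of_radial {w : ℝ} {Q Q1 : ℝ → ℂ} {s : Set ℝ} (hs : IsOpen s)
    (h0 : ∀ r ∈ s, r ≠ 0) (hQ : ∀ r ∈ s, HasDerivAt Q (Q1 r) r)
    (hQ1 : ∀ r ∈ s, HasDerivAt Q1 (radRHS d m w r (Q r) (Q1 r)) r) (n : ℕ) :
    ContDiffOn ℝ n Q s ∧ ContDiffOn ℝ n Q1 s := by
  induction n with
  | zero =>
    simp only [Nat.cast_zero, contDiffOn_zero]
    exact ⟨fun r hr => (hQ r hr).continuousAt.continuousWithinAt,
      fun r hr => (hQ1 r hr).continuousAt.continuousWithinAt⟩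
  | succ n ih =>
    obtain ⟨i1, i2⟩ := ih
    push_cast
    rw [contDiffOn_succ_iff_deriv_of_isOpen hs, contDiffOn_succ_iff_deriv_of_isOpen hs]
    refine ⟨⟨fun r hr => (hQ r hr).differentiableAt.differentiableWithinAt, by simp, ?_⟩,
      ⟨fun r hr => (hQ1 r hr).differentiableAt.differentiableWithinAt, by simp, ?_⟩⟩
    · exact i2.congr fun r hr => (hQ r hr).deriv
    · exact (contDiffOn_radRHS (d := d) (m := m) (w := w) h0 i1 i2).congr
        fun r hr => (hQ1 r hr).deriv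

/-! ### Far field -/

theorem iteratedDeriv_ofReal {f : ℂ → ℂ} {x0 : ℝ} (hf : DifferentiableOn ℂ f {z | x0 < z.re})
    (j : ℕ) : ∀ z : ℝ, x0 < z →
      iteratedDeriv j (fun t : ℝ => f t) z = iteratedDeriv j f (z : ℂ) := by
  have hopen : IsOpen {z : ℂ | x0 < z.re} := isOpen_lt continuous_const continuous_re
  have han : AnalyticOnNhd ℂ f {z | x0 < z.re} := hf.analyticOnNhd hopen
  induction j with
  | zero => intro z _; simp
  | succ j ih =>
    intro z hz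
    rw [iteratedDeriv_succ, iteratedDeriv_succ]
    have h1 : iteratedDeriv j (fun t : ℝ => f t) =ᶠ[𝓝 z] fun t : ℝ => iteratedDeriv j f (t : ℂ) := by
      filter_upwards [Ioi_mem_nhds hz] with t ht using ih t ht
    rw [h1.deriv_eq]
    have h2 : DifferentiableAt ℂ (iteratedDeriv j f) (z : ℂ) := by
      have h3 : AnalyticAt ℂ (iteratedDeriv j f) (z : ℂ) := by
        rw [iteratedDeriv_eq_iterate]
        exact (han (z : ℂ) (by simpa using hz)).iterated_deriv j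
      exact h3.differentiableAt
    exact (h2.hasDerivAt.comp_ofReal).deriv

theorem iteratedDeriv_bound_of_halfplane {f : ℂ → ℂ} {x0 M a : ℝ} (hx0 : 0 < x0) (ha : 0 ≤ a)
    (hf : DifferentiableOn ℂ f {z | x0 < z.re})
    (hfb : ∀ z : ℂ, x0 < z.re → ‖f z‖ ≤ M * ‖z‖ ^ (-a)) (j : ℕ) :
    ∀ z : ℝ, 2 * x0 ≤ z →
      ‖iteratedDeriv j (fun t : ℝ => f t) z‖
        ≤ (j.factorial * M * 2 ^ a * 4 ^ j) * z ^ (-a - (j : ℝ)) := by
  intro z hz
  have hz0 : 0 < z := by linarith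
  rw [iteratedDeriv_ofReal hf j z (by linarith)]
  have hopen : IsOpen {z : ℂ | x0 < z.re} := isOpen_lt continuous_const continuous_re
  have hsub : Metric.closedBall (z : ℂ) (z / 4) ⊆ {z | x0 < z.re} := by
    intro ζ hζ
    rw [Metric.mem_closedBall, dist_eq_norm] at hζ
    have h1 : |(ζ - z).re| ≤ ‖ζ - z‖ := Complex.abs_re_le_norm _
    rw [Complex.sub_re, Complex.ofReal_re] at h1
    have h2 := (abs_le.1 (h1.trans hζ)).1
    change x0 < ζ.re
    linarith
  have hM : 0 ≤ M := by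
    have h1 := hfb (z : ℂ) (by simpa using (by linarith : x0 < z))
    have h2 : 0 < ‖(z : ℂ)‖ ^ (-a) := by
      apply Real.rpow_pos_of_pos
      simpa using hz0.ne'
    by_contra h3
    have h4 : M * ‖(z : ℂ)‖ ^ (-a) < 0 := mul_neg_of_neg_of_pos (not_le.1 h3) h2
    exact absurd (norm_nonneg (f z)) (by linarith)
  have hdc : DiffContOnCl ℂ f (Metric.ball (z : ℂ) (z / 4)) := by
    apply DifferentiableOn.diffContOnCl
    exact hf.mono ((Metric.closure_ball_subset_closedBall).trans hsub)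
  have hC : ∀ ζ ∈ Metric.sphere (z : ℂ) (z / 4), ‖f ζ‖ ≤ M * (z / 2) ^ (-a) := by
    intro ζ hζ
    have hζ' := hsub (Metric.sphere_subset_closedBall hζ)
    refine (hfb ζ hζ').trans ?_
    have h1 : z / 2 ≤ ‖ζ‖ := by
      have h2 : ‖ζ - z‖ = z / 4 := by rw [← dist_eq_norm]; exact hζ
      have h3 : ‖(z : ℂ)‖ ≤ ‖ζ‖ + ‖ζ - z‖ := by
        have := norm_sub_le ζ (ζ - z)
        rwa [sub_sub_cancel] at this
      rw [Complex.norm_real, Real.norm_eq_abs, abs_of_pos hz0, h2] at h3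
      linarith
    have h2 : ‖ζ‖ ^ (-a) ≤ (z / 2) ^ (-a) :=
      Real.rpow_le_rpow_of_nonpos (by positivity) h1 (by linarith)
    gcongr
  have h := Complex.norm_iteratedDeriv_le_of_forall_mem_sphere_norm_le j
    (by positivity : 0 < z / 4) hdc hC
  refine h.trans (le_of_eq ?_)
  rw [Real.div_rpow hz0.le (by norm_num), Real.rpow_sub hz0, Real.rpow_natCast,
    Real.rpow_neg (by norm_num : (0 : ℝ) ≤ 2), div_pow]
  have h2a : (0 : ℝ) < 2 ^ a := Real.rpow_pos_of_pos (by norm_num) _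
  field_simp

/-- Bound for `z ^ k * g z` in the right half plane. -/
theorem norm_cpow_mul_le {g : ℂ → ℂ} {x0 M : ℝ} (hx0 : 0 < x0)
    (hg : ∀ z : ℂ, x0 < z.re → ‖g z‖ ≤ M) (k : ℂ) {z : ℂ} (hz : x0 < z.re) :
    ‖z ^ k * g z‖ ≤ (Real.exp (Real.pi * |k.im|) * M) * ‖z‖ ^ k.re := by
  have hz0 : z ≠ 0 := by
    rintro rfl
    simp at hz
    linarith
  rw [norm_mul, Complex.norm_cpow_of_ne_zero hz0]
  have hzn : 0 < ‖z‖ := norm_pos_iff.2 hz0
  have h1 : ‖z‖ ^ k.re / Real.exp (z.arg * k.im) ≤ Real.exp (Real.pi * |k.im|) * ‖z‖ ^ k.re := by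
    rw [div_eq_mul_inv, ← Real.exp_neg, mul_comm]
    gcongr
    have h2 : |z.arg * k.im| ≤ Real.pi * |k.im| := by
      rw [abs_mul]
      gcongr
      exact Complex.abs_arg_le_pi z
    exact (neg_le_abs _).trans h2
  have hM : 0 ≤ M := (norm_nonneg _).trans (hg z hz)
  calc _ ≤ (Real.exp (Real.pi * |k.im|) * ‖z‖ ^ k.re) * M := by
        gcongr
        exact hg z hz
    _ = _ := by ring

theorem differentiableOn_cpow_mul {g : ℂ → ℂ} {x0 : ℝ} (hx0 : 0 < x0)
    (hg : DifferentiableOn ℂ g {z | x0 < z.re}) (k : ℂ) :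
    DifferentiableOn ℂ (fun z => z ^ k * g z) {z | x0 < z.re} := by
  refine DifferentiableOn.mul ?_ hg
  intro z hz
  have hs : z ∈ slitPlane := Or.inl (lt_trans hx0 hz)
  exact (differentiableAt_id.cpow_const hs).differentiableWithinAt

/-! ### The profile from the radial equation -/

/-- **Assembly.** `Q` solves the radial profile equation on `(0,∞)`, does not vanish, is smooth in
`r²` near `0` and is given near infinity by a function holomorphic in a half plane. -/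
theorem isProfile_of_radial {w : ℝ} {Q Q1 : ℝ → ℂ}
    (hQ : ∀ r > 0, HasDerivAt Q (Q1 r) r)
    (hQ1 : ∀ r > 0, HasDerivAt Q1 (radRHS d m w r (Q r) (Q1 r)) r)
    (hne : ∀ r : ℝ, 0 ≤ r → Q r ≠ 0)
    {δ : ℝ} (hδ : 0 < δ) {U : ℝ → ℂ} (hU : ContDiff ℝ ∞ U) (hQU : ∀ r ∈ Icc 0 δ, Q r = U (r ^ 2))
    {f : ℂ → ℂ} {x0 M : ℝ} (hx0 : 0 < x0) (hf : DifferentiableOn ℂ f {z | x0 < z.re})
    (hfb : ∀ z : ℂ, x0 < z.re → ‖f z‖ ≤ M * ‖z‖ ^ (-(aa m)))
    (hQf : ∀ r > 0, x0 < r ^ 2 / 4 → Q r = f ((r ^ 2 / 4 : ℝ) : ℂ)) :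
    IsProfile d m w (fun x => Q ‖x‖) := by
  -- smoothness of `z ↦ Q (√z)` on `(0,∞)`
  have hQs : ContDiffOn ℝ ∞ Q (Ioi 0) := by
    rw [contDiffOn_infty]
    intro n
    exact (contDiffOn_of_radial isOpen_Ioi (fun r hr => (ne_of_gt hr)) hQ hQ1 n).1
  have hsq : ContDiffOn ℝ ∞ (fun z : ℝ => Q (Real.sqrt z)) (Ioi 0) := by
    have h1 : ContDiffOn ℝ ∞ Real.sqrt (Ioi 0) := fun z hz =>
      (Real.contDiffAt_sqrt (ne_of_gt hz)).contDiffWithinAt
    exact hQs.comp h1 fun z hz => Real.sqrt_pos.2 hz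
  obtain ⟨h, hh, hh0, hh1⟩ := glue_contDiff (z1 := 0) (z2 := δ ^ 2) (by positivity)
    (hU.contDiffOn (s := Iio (δ ^ 2))) hsq (by
      intro z hz
      have h1 : Real.sqrt z ∈ Icc 0 δ := by
        refine ⟨Real.sqrt_nonneg _, ?_⟩
        rw [Real.sqrt_le_left hδ.le]
        exact hz.2.le
      rw [hQU _ h1, Real.sq_sqrt hz.1.le])
  have hQh : ∀ r : ℝ, 0 ≤ r → Q r = h (r ^ 2) := by
    intro r hr
    rcases hr.eq_or_lt with rfl | hr'
    · rw [hQU 0 ⟨le_rfl, hδ.le⟩, hh0 (0 ^ 2) (by simpa using pow_pos hδ 2)]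
    · rw [hh1 _ (by positivity), Real.sqrt_sq hr]
  have hfun : (fun x : E d => Q ‖x‖) = fun x => h (‖x‖ ^ 2) :=
    funext fun x => hQh _ (norm_nonneg _)
  rw [hfun]
  have hd0 : Differentiable ℝ h := hh.differentiable (by simp)
  have hh1' : ContDiff ℝ ∞ (deriv h) := ((contDiff_infty_iff_deriv (𝕜 := ℝ)).1 hh).2
  have hd1 : Differentiable ℝ (deriv h) := hh1'.differentiable (by simp)
  have hh2' : ContDiff ℝ ∞ (deriv (deriv h)) := ((contDiff_infty_iff_deriv (𝕜 := ℝ)).1 hh1').2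
  have hsqd : ∀ r : ℝ, HasDerivAt (fun r : ℝ => r ^ 2) (2 * r) r := fun r => by
    simpa using hasDerivAt_pow 2 r
  -- first derivative
  have hQ1h : ∀ r : ℝ, 0 < r → Q1 r = (2 * r) • deriv h (r ^ 2) := by
    intro r hr
    have e : Q =ᶠ[𝓝 r] fun r => h (r ^ 2) := by
      filter_upwards [Ioi_mem_nhds hr] with t ht using hQh t (le_of_lt ht)
    have h1 : HasDerivAt (fun r : ℝ => h (r ^ 2)) ((2 * r) • deriv h (r ^ 2)) r :=
      HasDerivAt.scomp (g₁ := h) (h := fun r : ℝ => r ^ 2) r (hd0 (r ^ 2)).hasDerivAt (hsqd r)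
    exact (hQ r hr).unique (h1.congr_of_eventuallyEq e)
  -- the equation for `z > 0`
  have heq0 : ∀ r : ℝ, 0 < r → 4 * ((r ^ 2 : ℝ) : ℂ) * deriv (deriv h) (r ^ 2)
      + (2 * (d : ℂ) + I * ((r ^ 2 : ℝ) : ℂ)) * deriv h (r ^ 2)
      + ((w : ℂ) + I * (aa m : ℂ)) * h (r ^ 2) - W1 m (h (r ^ 2)) * h (r ^ 2) = 0 := by
    intro r hr
    have e : Q1 =ᶠ[𝓝 r] fun r => (2 * r) • deriv h (r ^ 2) := by
      filter_upwards [Ioi_mem_nhds hr] with t ht using hQ1h t ht
    have h1 : HasDerivAt (fun r : ℝ => deriv h (r ^ 2)) ((2 * r) • deriv (deriv h) (r ^ 2)) r :=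
      HasDerivAt.scomp (g₁ := deriv h) (h := fun r : ℝ => r ^ 2) r (hd1 (r ^ 2)).hasDerivAt (hsqd r)
    have h2 : HasDerivAt (fun r : ℝ => (2 * r) • deriv h (r ^ 2))
        ((2 * r) • ((2 * r) • deriv (deriv h) (r ^ 2)) + (2 : ℝ) • deriv h (r ^ 2)) r := by
      have h3 : HasDerivAt (fun r : ℝ => 2 * r) 2 r := by
        simpa using (hasDerivAt_id r).const_mul (2 : ℝ)
      exact h3.smul h1
    have h4 := (hQ1 r hr).unique (h2.congr_of_eventuallyEq e)
    rw [hQ1h r hr, hQh r hr.le] at h4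
    unfold radRHS at h4
    simp only [Complex.real_smul] at h4
    have hrc : (r : ℂ) ≠ 0 := by exact_mod_cast hr.ne'
    have h5 : W1 m (h (r ^ 2)) * h (r ^ 2) =
        ((2 * r : ℝ) : ℂ) * (((2 * r : ℝ) : ℂ) * deriv (deriv h) (r ^ 2))
        + ((2 : ℝ) : ℂ) * deriv h (r ^ 2)
        + (((((d : ℝ) - 1) / r : ℝ) : ℂ) + I * ((r / 2 : ℝ) : ℂ))
          * (((2 * r : ℝ) : ℂ) * deriv h (r ^ 2))
        + ((w : ℂ) + I * (aa m : ℂ)) * h (r ^ 2) := by
      rw [← h4]; ring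
    rw [h5]
    push_cast
    field_simp
    ring
  have heqz : ∀ z : ℝ, 0 ≤ z → 4 * (z : ℂ) * deriv (deriv h) z
      + (2 * (d : ℂ) + I * z) * deriv h z
      + ((w : ℂ) + I * (aa m : ℂ)) * h z - W1 m (h z) * h z = 0 := by
    have hcont : Continuous fun z : ℝ => 4 * (z : ℂ) * deriv (deriv h) z
      + (2 * (d : ℂ) + I * z) * deriv h z
      + ((w : ℂ) + I * (aa m : ℂ)) * h z - W1 m (h z) * h z := by
      have c0 := hh.continuous
      have c1 := hh1'.continuous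
      have c2 := hh2'.continuous
      have c3 : Continuous fun z => W1 m (h z) := (contDiff_W1 m).continuous.comp c0
      fun_prop
    intro z hz
    have hcl : z ∈ closure (Ioi (0 : ℝ)) := by rw [closure_Ioi]; exact hz
    have hclosed : IsClosed {z : ℝ | 4 * (z : ℂ) * deriv (deriv h) z
      + (2 * (d : ℂ) + I * z) * deriv h z
      + ((w : ℂ) + I * (aa m : ℂ)) * h z - W1 m (h z) * h z = 0} :=
      isClosed_eq hcont continuous_const
    refine (closure_minimal (fun z hz => ?_) hclosed) hcl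
    have := heq0 (Real.sqrt z) (Real.sqrt_pos.2 hz)
    rwa [Real.sq_sqrt (le_of_lt hz)] at this
  -- the far field
  set F : ℂ → ℂ := fun z => f (z / 4) with hF
  have hFd : DifferentiableOn ℂ F {z | 4 * x0 < z.re} := by
    refine hf.comp (differentiableOn_id.div_const 4) fun z hz => ?_
    have e : (z / 4).re = z.re / 4 := by
      have : (4 : ℂ) = ((4 : ℝ) : ℂ) := by norm_num
      rw [this, Complex.div_ofReal_re]
    have hz' : 4 * x0 < z.re := hz
    have e2 : (id z / 4).re = z.re / 4 := e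
    change x0 < (id z / 4).re
    rw [e2]
    linarith
  have hFb : ∀ z : ℂ, 4 * x0 < z.re → ‖F z‖ ≤ (M * 4 ^ (aa m)) * ‖z‖ ^ (-(aa m)) := by
    intro z hz
    have e : (z / 4).re = z.re / 4 := by
      have : (4 : ℂ) = ((4 : ℝ) : ℂ) := by norm_num
      rw [this, Complex.div_ofReal_re]
    have h1 := hfb (z / 4) (by rw [e]; linarith)
    have h2 : ‖z / 4‖ ^ (-(aa m)) = 4 ^ (aa m) * ‖z‖ ^ (-(aa m)) := by
      have e4 : ‖z / 4‖ = ‖z‖ / 4 := by
        rw [norm_div]; norm_num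
      rw [e4, Real.div_rpow (norm_nonneg _) (by norm_num), Real.rpow_neg (by norm_num : (0:ℝ) ≤ 4),
        div_inv_eq_mul, mul_comm]
    rw [h2] at h1
    calc ‖F z‖ = ‖f (z / 4)‖ := rfl
      _ ≤ _ := h1
      _ = _ := by ring
  refine isProfile_of_z hh (fun z hz => sub_eq_zero.1 (heqz z hz)) (fun z hz => ?_)
    (z0 := 2 * (4 * x0)) (by positivity)
    (fun j => ⟨j.factorial * (M * 4 ^ (aa m)) * 2 ^ (aa m) * 4 ^ j, fun z hz => ?_⟩)
  · have := hne (Real.sqrt z) (Real.sqrt_nonneg _)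
    rwa [hQh _ (Real.sqrt_nonneg _), Real.sq_sqrt hz] at this
  · have hz' : 4 * x0 < z := by linarith
    have e : h =ᶠ[𝓝 z] fun t : ℝ => F t := by
      filter_upwards [Ioi_mem_nhds hz'] with t ht
      have ht' : 4 * x0 < t := ht
      have ht0 : 0 < t := by linarith
      have h1 := hQf (Real.sqrt t) (Real.sqrt_pos.2 ht0) (by rw [Real.sq_sqrt ht0.le]; linarith)
      rw [hQh _ (Real.sqrt_nonneg _), Real.sq_sqrt ht0.le] at h1
      rw [h1, hF]
      push_cast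
      rfl
    rw [e.iteratedDeriv_eq j]
    exact iteratedDeriv_bound_of_halfplane (by positivity) (aa_nonneg m) hFd hFb j z hz

end Vale.Agent.P139.H644
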