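import Mathlib
import Vale.Agent.P139.H644.Sym4
import Vale.Agent.P139.H644.PAsm2

/-!
# Bootstrapping the profile equation in `z = r²` : derivative bounds polynomial in `m`
-/

open Set Filter Topology Complex
open scoped ContDiff ComplexConjugate RealInnerProductSpace
open Vale.Agent.P139.BU

namespace Vale.Agent.P139.H644

variable {d m : ℕ}

/-! ### A maximum principle for `4 z u' + (κ + i z) u = S` -/

theorem deriv_nonneg_of_left_max {y : ℝ → ℝ} {y' z a : ℝ} (ha : a < z) (h : HasDerivAt y y' z)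
    (hmax : ∀ s ∈ Icc a z, y s ≤ y z) : 0 ≤ y' := by
  have h1 : IsLocalMaxOn y (Icc a z) z := by
    have : IsMaxOn y (Icc a z) z := fun s hs => hmax s hs
    exact this.localize
  have h2 : (a - z) ∈ posTangentConeAt (Icc a z) z := by
    apply sub_mem_posTangentConeAt_of_segment_subset
    rw [segment_symm, segment_eq_Icc ha.le]
  have h3 := h1.hasFDerivWithinAt_nonpos h.hasDerivWithinAt.hasFDerivWithinAt h2
  simp only [ContinuousLinearMap.toSpanSingleton_apply, smul_eq_mul] at h3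
  nlinarith

theorem transport_bound {u u1 S : ℝ → ℂ} {Z κ σ : ℝ} (hκ : 0 < κ)
    (hu : ∀ z, HasDerivAt u (u1 z) z)
    (heq : ∀ z ∈ Icc 0 Z, 4 * (z : ℂ) * u1 z + ((κ : ℂ) + I * z) * u z = S z)
    (hS : ∀ z ∈ Icc 0 Z, ‖S z‖ ≤ σ) :
    ∀ z ∈ Icc 0 Z, κ * ‖u z‖ ≤ σ := by
  intro z hz
  have hZ : (Icc 0 Z).Nonempty := ⟨z, hz⟩
  have hcont : Continuous u := continuous_iff_continuousAt.2 fun z => (hu z).continuousAt
  obtain ⟨z0, hz0, hmax⟩ := isCompact_Icc.exists_isMaxOn hZ hcont.norm.continuousOn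
  have hmax' : ∀ s ∈ Icc 0 Z, ‖u s‖ ≤ ‖u z0‖ := fun s hs => hmax hs
  refine (mul_le_mul_of_nonneg_left (hmax' z hz) hκ.le).trans ?_
  -- the identity `2 z y' = Re (conj u S) - κ |u|²`
  have hre : 4 * z0 * ⟪u z0, u1 z0⟫ + κ * ‖u z0‖ ^ 2 = (conj (u z0) * S z0).re := by
    rw [← heq z0 hz0]
    rw [Complex.inner, Complex.sq_norm, Complex.normSq_apply]
    simp [Complex.mul_re, Complex.mul_im]
    ring
  have hle : (conj (u z0) * S z0).re ≤ ‖u z0‖ * σ := by
    refine (Complex.re_le_norm _).trans ?_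
    rw [norm_mul, Complex.norm_conj]
    exact mul_le_mul_of_nonneg_left (hS z0 hz0) (norm_nonneg _)
  have hpos : 0 ≤ 4 * z0 * ⟪u z0, u1 z0⟫ := by
    rcases hz0.1.eq_or_lt with h0 | h0
    · rw [← h0]; simp
    · have hd : HasDerivAt (fun z => ‖u z‖ ^ 2) (2 * ⟪u z0, u1 z0⟫) z0 := (hu z0).norm_sq
      have := deriv_nonneg_of_left_max h0 hd fun s hs => by
        have := hmax' s ⟨hs.1, hs.2.trans hz0.2⟩
        gcongr
      have h4 : 0 ≤ ⟪u z0, u1 z0⟫ := by linarith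
      positivity
  rcases (norm_nonneg (u z0)).eq_or_lt with h0 | h0
  · rw [← h0, mul_zero]
    exact (norm_nonneg _).trans (hS z0 hz0)
  · have h5 : κ * ‖u z0‖ * ‖u z0‖ ≤ σ * ‖u z0‖ := by nlinarith
    exact le_of_mul_le_mul_right h5 h0

/-! ### The differentiated equation -/

/-- The equation in the variable `z`. -/
def ZEq (d m : ℕ) (w : ℝ) (h : ℝ → ℂ) : Prop :=
  ∀ z : ℝ, 0 ≤ z → 4 * (z : ℂ) * deriv (deriv h) z + (2 * (d : ℂ) + I * z) * deriv h z
      + ((w : ℂ) + I * (aa m : ℂ)) * h z = W1 m (h z) * h z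

/-- Right-hand side `G = W h - (w + i a) h`. -/
noncomputable def GG (m : ℕ) (w : ℝ) (h : ℝ → ℂ) (z : ℝ) : ℂ :=
  W1 m (h z) * h z - ((w : ℂ) + I * (aa m : ℂ)) * h z

theorem contDiff_GG {w : ℝ} {h : ℝ → ℂ} (hh : ContDiff ℝ ∞ h) : ContDiff ℝ ∞ (GG m w h) := by
  unfold GG
  exact (((contDiff_W1 m).comp hh).mul hh).sub (contDiff_const.mul hh)

theorem hasDerivAt_iteratedDeriv {h : ℝ → ℂ} (hh : ContDiff ℝ ∞ h) (j : ℕ) (z : ℝ) :
    HasDerivAt (iteratedDeriv j h) (iteratedDeriv (j + 1) h z) z := by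
  rw [iteratedDeriv_succ]
  have : Differentiable ℝ (iteratedDeriv j h) :=
    hh.differentiable_iteratedDeriv j (by exact_mod_cast ENat.natCast_lt_top j)
  exact (this z).hasDerivAt

theorem continuous_iteratedDeriv' {h : ℝ → ℂ} (hh : ContDiff ℝ ∞ h) (j : ℕ) :
    Continuous (iteratedDeriv j h) :=
  continuous_iff_continuousAt.2 fun z => (hasDerivAt_iteratedDeriv hh j z).continuousAt

theorem zeq_iterated {w : ℝ} {h : ℝ → ℂ} (hh : ContDiff ℝ ∞ h) (heq : ZEq d m w h) (j : ℕ) :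
    ∀ z : ℝ, 0 ≤ z → 4 * (z : ℂ) * iteratedDeriv (j + 2) h z
      + (((4 * j + 2 * d : ℝ) : ℂ) + I * z) * iteratedDeriv (j + 1) h z
      = iteratedDeriv j (GG m w h) z - I * j * iteratedDeriv j h z := by
  have hG := contDiff_GG (m := m) (w := w) hh
  induction j with
  | zero =>
    intro z hz
    have := heq z hz
    have e2 : iteratedDeriv 2 h z = deriv (deriv h) z := by
      rw [iteratedDeriv_succ, iteratedDeriv_one]
    simp only [Nat.zero_add, e2, iteratedDeriv_one, iteratedDeriv_zero, GG]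
    push_cast
    rw [← this]
    ring
  | succ j ih =>
    -- the difference of the two sides at level `j` vanishes on `[0,∞)`
    set D : ℝ → ℂ := fun z => 4 * (z : ℂ) * iteratedDeriv (j + 2) h z
      + (((4 * j + 2 * d : ℝ) : ℂ) + I * z) * iteratedDeriv (j + 1) h z
      - (iteratedDeriv j (GG m w h) z - I * j * iteratedDeriv j h z) with hD
    set D1 : ℝ → ℂ := fun z => 4 * (z : ℂ) * iteratedDeriv (j + 1 + 2) h z
      + (((4 * (j + 1 : ℕ) + 2 * d : ℝ) : ℂ) + I * z) * iteratedDeriv (j + 1 + 1) h z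
      - (iteratedDeriv (j + 1) (GG m w h) z - I * (j + 1 : ℕ) * iteratedDeriv (j + 1) h z) with hD1
    have hder : ∀ z, HasDerivAt D (D1 z) z := by
      intro z
      have c0 : HasDerivAt (fun z : ℝ => (z : ℂ)) 1 z := Complex.ofRealCLM.hasDerivAt
      have a1 := (c0.const_mul (4 : ℂ)).mul (hasDerivAt_iteratedDeriv hh (j + 2) z)
      have a2 := ((c0.const_mul I).const_add (((4 * j + 2 * d : ℝ) : ℂ))).mul
        (hasDerivAt_iteratedDeriv hh (j + 1) z)
      have a3 := hasDerivAt_iteratedDeriv hG j z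
      have a4 := (hasDerivAt_iteratedDeriv hh j z).const_mul (I * j)
      refine ((a1.add a2).sub (a3.sub a4)).congr_deriv ?_
      rw [hD1]
      push_cast
      ring
    have hD0 : ∀ z, 0 ≤ z → D z = 0 := fun z hz => by
      rw [hD]; simp only []; rw [ih z hz, sub_self]
    have hpos : ∀ z, 0 < z → D1 z = 0 := by
      intro z hz
      have e : D =ᶠ[𝓝 z] fun _ => 0 := by
        filter_upwards [Ioi_mem_nhds hz] with t ht using hD0 t (le_of_lt ht)
      have := (hder z).unique ((hasDerivAt_const z (0 : ℂ)).congr_of_eventuallyEq e)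
      exact this
    have hcont : Continuous D1 := by
      rw [hD1]
      have c1 := continuous_iteratedDeriv' hh (j + 1 + 2)
      have c2 := continuous_iteratedDeriv' hh (j + 1 + 1)
      have c3 := continuous_iteratedDeriv' hG (j + 1)
      have c4 := continuous_iteratedDeriv' hh (j + 1)
      fun_prop
    have hclosed : IsClosed {z : ℝ | D1 z = 0} := isClosed_eq hcont continuous_const
    intro z hz
    have hcl : z ∈ closure (Ioi (0 : ℝ)) := by rw [closure_Ioi]; exact hz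
    have := (closure_minimal (fun z hz => hpos z hz) hclosed) hcl
    exact sub_eq_zero.1 this

/-! ### Derivative bounds -/

theorem pb_nonlin {h : ℝ → ℂ} (hh : ContDiff ℝ ∞ h) {N : ℕ} {z A β : ℝ}
    (hPB : PB N z A β h) :
    PB N z (A ^ (2 * m + 1)) (((2 * m + 1 : ℕ) : ℝ) * β) (fun z => W1 m (h z) * h z) := by
  have hhN : ContDiff ℝ N h := hh.of_le (by exact_mod_cast le_top)
  have hc : ContDiff ℝ N (fun y => conj (h y)) := Complex.conjCLE.contDiff.comp hhN
  have hcPB : PB N z A β (fun y => conj (h y)) := by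
    intro k hk
    have := hPB k hk
    have e : ‖iteratedFDeriv ℝ k (fun y => conj (h y)) z‖ = ‖iteratedFDeriv ℝ k h z‖ :=
      (Complex.conjLIE : ℂ ≃ₗᵢ[ℝ] ℂ).norm_iteratedFDeriv_comp_left h z k
    rw [e]; exact this
  have h1 := PB.mul (hhN.pow (m + 1)) (hc.pow m) (hPB.pow hhN (m + 1)) (hcPB.pow hc m)
  have e : (fun z => W1 m (h z) * h z) = fun z => h z ^ (m + 1) * conj (h z) ^ m := by
    funext z; unfold W1; rw [mul_pow]; ring
  rw [e]
  have e1 : A ^ (2 * m + 1) = A ^ (m + 1) * A ^ m := by rw [← pow_add]; congr 1; ring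
  have e2 : ((2 * m + 1 : ℕ) : ℝ) * β = ((m + 1 : ℕ) : ℝ) * β + (m : ℝ) * β := by
    push_cast; ring
  rw [e1, e2]
  exact h1

theorem pb_GG {w : ℝ} {h : ℝ → ℂ} (hh : ContDiff ℝ ∞ h) {N : ℕ} {z A β C1 W : ℝ} (hA0 : 0 ≤ A)
    (hβ : 0 ≤ β) (hA : A ^ (2 * m) ≤ C1) (hW : |w| + aa m ≤ W) (hPB : PB N z A β h) :
    PB N z ((C1 + W) * A) (((2 * m + 1 : ℕ) : ℝ) * β) (GG m w h) := by
  have hhN : ContDiff ℝ N h := hh.of_le (by exact_mod_cast le_top)
  have h1 : PB N z (C1 * A) (((2 * m + 1 : ℕ) : ℝ) * β) (fun z => W1 m (h z) * h z) := by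
    refine (pb_nonlin (m := m) hh hPB).mono le_rfl ?_ (by positivity) le_rfl
    rw [pow_succ]
    exact mul_le_mul_of_nonneg_right hA hA0
  have hm1 : (1 : ℝ) ≤ ((2 * m + 1 : ℕ) : ℝ) := by
    push_cast; have := Nat.cast_nonneg (α := ℝ) m; linarith
  have h2 : PB N z (W * A) (((2 * m + 1 : ℕ) : ℝ) * β)
      (fun z => (-((w : ℂ) + I * (aa m : ℂ))) * h z) := by
    have hcl := hPB.clm (ContinuousLinearMap.mul ℝ ℂ (-((w : ℂ) + I * (aa m : ℂ)))) hhN
    have hn : ‖ContinuousLinearMap.mul ℝ ℂ (-((w : ℂ) + I * (aa m : ℂ)))‖ ≤ W := by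
      refine (ContinuousLinearMap.opNorm_mul_apply_le ℝ ℂ _).trans ?_
      rw [norm_neg]
      refine (norm_add_le _ _).trans ?_
      rw [norm_mul, Complex.norm_I, one_mul, Complex.norm_real, Complex.norm_real,
        Real.norm_eq_abs, Real.norm_eq_abs, abs_of_nonneg (aa_nonneg m)]
      exact hW
    refine hcl.mono le_rfl (mul_le_mul_of_nonneg_right hn hA0) hβ ?_
    nlinarith
  have hf1 : ContDiff ℝ N (fun z => W1 m (h z) * h z) :=
    (((contDiff_W1 m).comp hh).mul hh).of_le (by exact_mod_cast le_top)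
  have hf2 : ContDiff ℝ N (fun z => (-((w : ℂ) + I * (aa m : ℂ))) * h z) :=
    contDiff_const.mul hhN
  have h3 := PB.add hf1 hf2 h1 h2
  have e : GG m w h = fun y => W1 m (h y) * h y + (-((w : ℂ) + I * (aa m : ℂ))) * h y := by
    funext y; unfold GG; ring
  rw [e, add_mul]
  exact h3

/-- **Bootstrapping.** If `|h| ≤ A` on `[0,Z]`, `A^{2m} ≤ C₁`, then all derivatives of order `≤ N`
are bounded by `A Γ^{N j}`, `Γ = (2m+1)(C₁+W+N+1)`. -/
theorem boot {w : ℝ} (hd : 1 ≤ d) {h : ℝ → ℂ} (hh : ContDiff ℝ ∞ h) (heq : ZEq d m w h)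
    {Z A C1 W : ℝ} (hA0 : 0 ≤ A) (hC1 : 0 ≤ C1) (hA : A ^ (2 * m) ≤ C1) (hW : |w| + aa m ≤ W)
    (hhA : ∀ z ∈ Icc 0 Z, ‖h z‖ ≤ A) (N : ℕ) :
    ∀ j ≤ N, ∀ z ∈ Icc 0 Z,
      PB j z A (((2 * m + 1 : ℕ) * (C1 + W + N + 1)) ^ j) h := by
  have hW0 : 0 ≤ W := le_trans (by have := aa_nonneg m; positivity) hW
  set Γ : ℝ := (2 * m + 1 : ℕ) * (C1 + W + N + 1) with hΓ
  have hm1 : (1 : ℝ) ≤ ((2 * m + 1 : ℕ) : ℝ) := by
    push_cast; have := Nat.cast_nonneg (α := ℝ) m; linarith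
  have hN0 : (0 : ℝ) ≤ N := Nat.cast_nonneg N
  have hΓ1 : 1 ≤ Γ := by
    rw [hΓ]
    have : (1 : ℝ) ≤ C1 + W + N + 1 := by linarith
    nlinarith
  have hΓm : ((2 * m + 1 : ℕ) : ℝ) ≤ Γ := by
    rw [hΓ]
    have : (1 : ℝ) ≤ C1 + W + N + 1 := by linarith
    nlinarith
  have hΓc : C1 + W + N + 1 ≤ Γ := by
    rw [hΓ]
    have : (1 : ℝ) ≤ C1 + W + N + 1 := by linarith
    nlinarith
  intro j
  induction j with
  | zero =>
    intro _ z hz k hk
    have : k = 0 := by omega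
    subst this
    simpa using hhA z hz
  | succ j ih =>
    intro hj z hz
    have ih' := ih (by omega)
    -- the bound for the new derivative
    have hS : ∀ z ∈ Icc 0 Z, ‖iteratedDeriv j (GG m w h) z - I * j * iteratedDeriv j h z‖
        ≤ A * Γ ^ (j * j) * (Γ ^ j * (C1 + W + N + 1)) := by
      intro z hz
      have hP := ih' z hz
      have g1 := pb_GG (w := w) hh hA0 (by positivity) hA hW hP j le_rfl
      have g2 := hP j le_rfl
      rw [norm_iteratedFDeriv_eq_norm_iteratedDeriv] at g1 g2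
      rw [mul_pow, ← pow_mul] at g1
      rw [← pow_mul] at g2
      have hjN : (j : ℝ) ≤ N := by exact_mod_cast (by omega : j ≤ N)
      have g3 : ‖I * j * iteratedDeriv j h z‖ ≤ N * (A * Γ ^ (j * j)) := by
        rw [norm_mul, norm_mul, Complex.norm_I, one_mul]
        simp only [Complex.norm_natCast]
        gcongr
      have g4 : ((2 * m + 1 : ℕ) : ℝ) ^ j ≤ Γ ^ j := by gcongr
      have g5 : (1 : ℝ) ≤ Γ ^ j := one_le_pow₀ hΓ1
      have g6 : 0 ≤ Γ ^ (j * j) := by positivity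
      calc ‖iteratedDeriv j (GG m w h) z - I * j * iteratedDeriv j h z‖
          ≤ ‖iteratedDeriv j (GG m w h) z‖ + ‖I * j * iteratedDeriv j h z‖ := norm_sub_le _ _
        _ ≤ (C1 + W) * A * (((2 * m + 1 : ℕ) : ℝ) ^ j * Γ ^ (j * j)) + N * (A * Γ ^ (j * j)) :=
            add_le_add g1 g3
        _ ≤ (C1 + W) * A * (Γ ^ j * Γ ^ (j * j)) + (N + 1) * (A * Γ ^ (j * j)) * Γ ^ j := by
            have t1 : (C1 + W) * A * (((2 * m + 1 : ℕ) : ℝ) ^ j * Γ ^ (j * j))
                ≤ (C1 + W) * A * (Γ ^ j * Γ ^ (j * j)) := by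
              have : 0 ≤ (C1 + W) * A := by positivity
              gcongr
            have t2 : (N : ℝ) * (A * Γ ^ (j * j)) ≤ (N + 1) * (A * Γ ^ (j * j)) * Γ ^ j := by
              have t3 : 0 ≤ A * Γ ^ (j * j) := by positivity
              have t4 : (N : ℝ) * (A * Γ ^ (j * j)) ≤ (N + 1) * (A * Γ ^ (j * j)) := by nlinarith
              have t5 : 0 ≤ (N + 1) * (A * Γ ^ (j * j)) := by positivity
              nlinarith
            exact add_le_add t1 t2
        _ = _ := by ring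
    have hκ : (0 : ℝ) < 4 * j + 2 * d := by
      have h1 : (1 : ℝ) ≤ d := by exact_mod_cast hd
      have h2 : (0 : ℝ) ≤ j := Nat.cast_nonneg j
      linarith
    have hb := transport_bound hκ (hasDerivAt_iteratedDeriv hh (j + 1))
      (fun z hz => zeq_iterated (d := d) hh heq j z hz.1) hS z hz
    have hκ1 : (1 : ℝ) ≤ 4 * j + 2 * d := by
      have h1 : (1 : ℝ) ≤ d := by exact_mod_cast hd
      have h2 : (0 : ℝ) ≤ j := Nat.cast_nonneg j
      linarith
    have hb' : ‖iteratedDeriv (j + 1) h z‖ ≤ A * Γ ^ (j * j) * (Γ ^ j * (C1 + W + N + 1)) := by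
      have : ‖iteratedDeriv (j + 1) h z‖ ≤ (4 * j + 2 * d : ℝ) * ‖iteratedDeriv (j + 1) h z‖ :=
        le_mul_of_one_le_left (norm_nonneg _) hκ1
      exact this.trans hb
    intro k hk
    rcases Nat.lt_or_ge k (j + 1) with hkj | hkj
    · have h1 := ih' z hz k (by omega)
      refine h1.trans ?_
      rw [← pow_mul, ← pow_mul]
      have : Γ ^ (j * k) ≤ Γ ^ ((j + 1) * k) := pow_le_pow_right₀ hΓ1 (by nlinarith)
      gcongr
    · have hk1 : k = j + 1 := by omega
      subst hk1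
      rw [norm_iteratedFDeriv_eq_norm_iteratedDeriv]
      refine hb'.trans ?_
      rw [← pow_mul]
      have h1 : A * Γ ^ (j * j) * (Γ ^ j * (C1 + W + N + 1)) ≤ A * Γ ^ (j * j) * (Γ ^ j * Γ) := by
        gcongr
      refine h1.trans ?_
      have h2 : A * Γ ^ (j * j) * (Γ ^ j * Γ) = A * Γ ^ (j * j + j + 1) := by
        rw [pow_add, pow_add]; ring
      rw [h2]
      have h3 : Γ ^ (j * j + j + 1) ≤ Γ ^ ((j + 1) * (j + 1)) :=
        pow_le_pow_right₀ hΓ1 (by nlinarith)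
      gcongr

end Vale.Agent.P139.H644
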