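import Mathlib
import Vale.Agent.P139.H644.Boot

/-!
# Symbol bounds of the profiles with constants polynomial in `m` (field `symb` of `BU.UP`)
-/

open Set Filter Topology Complex
open scoped ContDiff ComplexConjugate RealInnerProductSpace
open Vale.Agent.P139.BU

namespace Vale.Agent.P139.H644

variable {d m : ℕ}

/-- Far field representation: `q r = f (r²/4)` with `f` holomorphic in `Re z > x₀` and
`|f z| ≤ M |z|^{-a}` there. -/
def FarField (m : ℕ) (x0 M : ℝ) (q : ℝ → ℂ) : Prop :=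
  ∃ f : ℂ → ℂ, DifferentiableOn ℂ f {z | x0 < z.re} ∧
    (∀ z : ℂ, x0 < z.re → ‖f z‖ ≤ M * ‖z‖ ^ (-(aa m))) ∧
    ∀ r > 0, x0 < r ^ 2 / 4 → q r = f ((r ^ 2 / 4 : ℝ) : ℂ)

theorem div_four_re (z : ℂ) : (z / 4).re = z.re / 4 := by
  have : (4 : ℂ) = ((4 : ℝ) : ℂ) := by norm_num
  rw [this, Complex.div_ofReal_re]

/-- Rescaling `z ↦ z/4` of a far field. -/
theorem far_rescale {f : ℂ → ℂ} {x0 M : ℝ} (hf : DifferentiableOn ℂ f {z | x0 < z.re})
    (hfb : ∀ z : ℂ, x0 < z.re → ‖f z‖ ≤ M * ‖z‖ ^ (-(aa m))) :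
    DifferentiableOn ℂ (fun z => f (z / 4)) {z | 4 * x0 < z.re} ∧
    ∀ z : ℂ, 4 * x0 < z.re → ‖f (z / 4)‖ ≤ (M * 4 ^ (aa m)) * ‖z‖ ^ (-(aa m)) := by
  constructor
  · refine hf.comp (differentiableOn_id.div_const 4) fun z hz => ?_
    have hz' : 4 * x0 < z.re := hz
    change x0 < (z / 4).re
    rw [div_four_re]
    linarith
  · intro z hz
    have h1 := hfb (z / 4) (by rw [div_four_re]; linarith)
    have h2 : ‖z / 4‖ ^ (-(aa m)) = 4 ^ (aa m) * ‖z‖ ^ (-(aa m)) := by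
      have e4 : ‖z / 4‖ = ‖z‖ / 4 := by
        rw [norm_div]; norm_num
      rw [e4, Real.div_rpow (norm_nonneg _) (by norm_num), Real.rpow_neg (by norm_num : (0:ℝ) ≤ 4),
        div_inv_eq_mul, mul_comm]
    rw [h2] at h1
    calc ‖f (z / 4)‖ ≤ _ := h1
      _ = _ := by ring

theorem aa_le_one (m : ℕ) : aa m ≤ 1 := by
  unfold aa
  rcases Nat.eq_zero_or_pos m with rfl | hm
  · simp
  · have : (1 : ℝ) ≤ m := by exact_mod_cast hm
    rw [div_le_one (by positivity)]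
    linarith

theorem two_aa_le_one (m : ℕ) : 2 * aa m ≤ 1 := by
  unfold aa
  rcases Nat.eq_zero_or_pos m with rfl | hm
  · simp
  · have : (1 : ℝ) ≤ m := by exact_mod_cast hm
    have e : 2 * (1 / (2 * (m : ℝ))) = 1 / m := by field_simp
    rw [e, div_le_one (by positivity)]
    exact this

/-- Bounds on `[0,Z]` in weighted form. -/
theorem near_weight {a b z Z : ℝ} {N j : ℕ} (ha1 : a ≤ 1) (hj : j ≤ N) (hz : 0 ≤ z)
    (hzZ : z ≤ Z) (hb : 0 ≤ b) :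
    b ≤ (b * (1 + Z) ^ (N + 1)) * (1 + z) ^ (-a - (j : ℝ)) := by
  have h1 : (1 : ℝ) ≤ 1 + z := by linarith
  have h2 : (1 + z) ^ (a + j) ≤ (1 + Z) ^ (N + 1) := by
    calc (1 + z) ^ (a + (j : ℝ)) ≤ (1 + z) ^ (((N + 1 : ℕ) : ℝ)) := by
          apply Real.rpow_le_rpow_of_exponent_le h1
          have : (j : ℝ) ≤ N := by exact_mod_cast hj
          push_cast
          linarith
      _ = (1 + z) ^ (N + 1) := Real.rpow_natCast _ _
      _ ≤ (1 + Z) ^ (N + 1) := by gcongr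
  have h3 : 0 < (1 + z) ^ (a + (j : ℝ)) := by positivity
  have e : -a - (j : ℝ) = -(a + j) := by ring
  rw [e, Real.rpow_neg (by linarith), ← div_eq_mul_inv, le_div_iff₀ h3]
  gcongr

/-- Bounds on `[z₀,∞)` in weighted form. -/
theorem far_weight {a b z z0 : ℝ} {N j : ℕ} (ha1 : a ≤ 1) (hj : j ≤ N)
    (hz0 : 0 < z0) (hz : z0 ≤ z) (hb : 0 ≤ b) :
    b * z ^ (-a - (j : ℝ)) ≤ (b * (1 + 1 / z0) ^ (N + 1)) * (1 + z) ^ (-a - (j : ℝ)) := by
  have hzp : 0 < z := by linarith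
  have e : -a - (j : ℝ) = -(a + j) := by ring
  have hq : (1 + z) / z ≤ 1 + 1 / z0 := by
    have : (1 + z) / z = 1 + 1 / z := by field_simp; ring
    rw [this]
    gcongr
  have hq1 : 1 ≤ (1 + z) / z := by rw [le_div_iff₀ hzp]; linarith
  have h2 : ((1 + z) / z) ^ (a + (j : ℝ)) ≤ (1 + 1 / z0) ^ (N + 1) := by
    calc ((1 + z) / z) ^ (a + (j : ℝ)) ≤ ((1 + z) / z) ^ (((N + 1 : ℕ) : ℝ)) := by
          apply Real.rpow_le_rpow_of_exponent_le hq1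
          have : (j : ℝ) ≤ N := by exact_mod_cast hj
          push_cast
          linarith
      _ = ((1 + z) / z) ^ (N + 1) := Real.rpow_natCast _ _
      _ ≤ _ := by gcongr
  have h3 : z ^ (-a - (j : ℝ)) = ((1 + z) / z) ^ (a + (j : ℝ)) * (1 + z) ^ (-a - (j : ℝ)) := by
    rw [e, Real.rpow_neg hzp.le, Real.rpow_neg (by linarith), Real.div_rpow (by linarith) hzp.le]
    have t1 : 0 < (1 + z) ^ (a + (j : ℝ)) := by positivity
    have t2 : 0 < z ^ (a + (j : ℝ)) := by positivity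
    field_simp
  rw [h3]
  have h4 : 0 ≤ (1 + z) ^ (-a - (j : ℝ)) := by positivity
  calc b * (((1 + z) / z) ^ (a + (j : ℝ)) * (1 + z) ^ (-a - (j : ℝ)))
      ≤ b * ((1 + 1 / z0) ^ (N + 1) * (1 + z) ^ (-a - (j : ℝ))) := by gcongr
    _ = _ := by ring

/-- The `m`-uniform constant. -/
noncomputable def symC (N : ℕ) (x0 M A C1 W : ℝ) : ℝ :=
  N.factorial * (A * (3 * (C1 + W + N + 1)) ^ (N * N) * (1 + 8 * x0) ^ (N + 1)
    + N.factorial * (M * 4) * 2 * 4 ^ N * (1 + 1 / (8 * x0)) ^ (N + 1)) * 2 * 4 ^ N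

/-- **Symbol bounds for one profile with explicit constants.** -/
theorem symN_profile (hd : 1 ≤ d) (hm : 1 ≤ m) {w : ℝ} {h : ℝ → ℂ} (hh : ContDiff ℝ ∞ h)
    (heq : ZEq d m w h) {x0 M A C1 W : ℝ} (hx0 : 0 < x0) (hM : 0 ≤ M)
    (hfar : ∃ f : ℂ → ℂ, DifferentiableOn ℂ f {z | x0 < z.re} ∧
      (∀ z : ℂ, x0 < z.re → ‖f z‖ ≤ M * ‖z‖ ^ (-(aa m))) ∧
      ∀ z : ℝ, 4 * x0 < z → h z = f ((z / 4 : ℝ) : ℂ))
    (hA0 : 0 ≤ A) (hC1 : 0 ≤ C1) (hA : A ^ (2 * m) ≤ C1) (hW : |w| + aa m ≤ W)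
    (hhA : ∀ z ∈ Icc 0 (8 * x0), ‖h z‖ ≤ A) (N : ℕ) :
    SymN N (2 * aa m) (symC N x0 M A C1 W * (m : ℝ) ^ (N * N)) (fun x : E d => h (‖x‖ ^ 2)) := by
  have hW0 : 0 ≤ W := le_trans (by have := aa_nonneg m; positivity) hW
  obtain ⟨f, hf, hfb, hhf⟩ := hfar
  obtain ⟨hFd, hFb⟩ := far_rescale (m := m) hf hfb
  have hmR : (1 : ℝ) ≤ m := by exact_mod_cast hm
  have hmK : (1 : ℝ) ≤ (m : ℝ) ^ (N * N) := one_le_pow₀ hmR
  have ha := aa_nonneg m
  have ha1 := aa_le_one m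
  set Γ : ℝ := (2 * m + 1 : ℕ) * (C1 + W + N + 1) with hΓ
  have hN0 : (0 : ℝ) ≤ N := Nat.cast_nonneg N
  have hm1 : (1 : ℝ) ≤ ((2 * m + 1 : ℕ) : ℝ) := by push_cast; linarith
  have hΓ1 : 1 ≤ Γ := by
    rw [hΓ]
    have : (1 : ℝ) ≤ C1 + W + N + 1 := by linarith
    nlinarith
  have hΓ3 : Γ ≤ (3 * (C1 + W + N + 1)) * m := by
    rw [hΓ]
    have h1 : ((2 * m + 1 : ℕ) : ℝ) ≤ 3 * m := by push_cast; linarith
    have h2 : (0 : ℝ) ≤ C1 + W + N + 1 := by linarith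
    calc ((2 * m + 1 : ℕ) : ℝ) * (C1 + W + N + 1) ≤ (3 * m) * (C1 + W + N + 1) := by gcongr
      _ = _ := by ring
  set B1 : ℝ := A * (3 * (C1 + W + N + 1)) ^ (N * N) with hB1
  set B2 : ℝ := N.factorial * (M * 4) * 2 * 4 ^ N with hB2
  have hB10 : 0 ≤ B1 := by rw [hB1]; positivity
  have hB20 : 0 ≤ B2 := by rw [hB2]; positivity
  -- pointwise bounds for the derivatives of `h`
  have hnear : ∀ j ≤ N, ∀ z ∈ Icc 0 (8 * x0), ‖iteratedDeriv j h z‖ ≤ B1 * (m : ℝ) ^ (N * N) := by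
    intro j hj z hz
    have h1 := boot hd hh heq hA0 hC1 hA hW hhA N j hj z hz j le_rfl
    rw [norm_iteratedFDeriv_eq_norm_iteratedDeriv, ← pow_mul] at h1
    refine h1.trans ?_
    have h2 : Γ ^ (j * j) ≤ Γ ^ (N * N) := pow_le_pow_right₀ hΓ1 (Nat.mul_le_mul hj hj)
    have h3 : Γ ^ (N * N) ≤ ((3 * (C1 + W + N + 1)) * m) ^ (N * N) := by gcongr
    rw [mul_pow (3 * (C1 + W + N + 1)) (m : ℝ)] at h3
    calc A * Γ ^ (j * j) ≤ A * ((3 * (C1 + W + N + 1)) ^ (N * N) * (m : ℝ) ^ (N * N)) := by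
          gcongr; exact h2.trans h3
      _ = _ := by rw [hB1]; ring
  have hfar' : ∀ j ≤ N, ∀ z : ℝ, 8 * x0 ≤ z →
      ‖iteratedDeriv j h z‖ ≤ B2 * z ^ (-(aa m) - (j : ℝ)) := by
    intro j hj z hz
    have hz' : 4 * x0 < z := by linarith
    have hzp : 0 < z := by linarith
    have e : h =ᶠ[𝓝 z] fun t : ℝ => f ((t : ℂ) / 4) := by
      filter_upwards [Ioi_mem_nhds hz'] with t ht
      rw [hhf t ht]; push_cast; rfl
    rw [e.iteratedDeriv_eq j]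
    have h1 := iteratedDeriv_bound_of_halfplane (by positivity : 0 < 4 * x0) (aa_nonneg m)
      hFd hFb j z (by linarith)
    refine h1.trans ?_
    have h2 : (j.factorial : ℝ) * (M * 4 ^ (aa m)) * 2 ^ (aa m) * 4 ^ j ≤ B2 := by
      rw [hB2]
      have t1 : (j.factorial : ℝ) ≤ N.factorial := by exact_mod_cast Nat.factorial_le hj
      have t2 : (4 : ℝ) ^ (aa m) ≤ 4 := by
        calc (4 : ℝ) ^ (aa m) ≤ (4 : ℝ) ^ (1 : ℝ) :=
              Real.rpow_le_rpow_of_exponent_le (by norm_num) ha1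
          _ = 4 := Real.rpow_one _
      have t3 : (2 : ℝ) ^ (aa m) ≤ 2 := by
        calc (2 : ℝ) ^ (aa m) ≤ (2 : ℝ) ^ (1 : ℝ) :=
              Real.rpow_le_rpow_of_exponent_le (by norm_num) ha1
          _ = 2 := Real.rpow_one _
      have t4 : (4 : ℝ) ^ j ≤ 4 ^ N := pow_le_pow_right₀ (by norm_num) hj
      gcongr
    have h3 : 0 ≤ z ^ (-(aa m) - (j : ℝ)) := by positivity
    exact mul_le_mul_of_nonneg_right h2 h3
  set AA : ℝ := (B1 * (1 + 8 * x0) ^ (N + 1) + B2 * (1 + 1 / (8 * x0)) ^ (N + 1))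
    * (m : ℝ) ^ (N * N) with hAA
  have hall : ∀ j ≤ N, ∀ z : ℝ, 0 ≤ z →
      ‖iteratedDeriv j h z‖ ≤ AA * (1 + z) ^ (-(2 * aa m / 2) - (j : ℝ)) := by
    intro j hj z hz
    have e : -(2 * aa m / 2) - (j : ℝ) = -(aa m) - (j : ℝ) := by ring
    rw [e]
    have hw0 : 0 ≤ (1 + z) ^ (-(aa m) - (j : ℝ)) := by positivity
    have p1 : 0 ≤ B1 * (1 + 8 * x0) ^ (N + 1) := by positivity
    have p2 : 0 ≤ B2 * (1 + 1 / (8 * x0)) ^ (N + 1) := by positivity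
    rcases le_total z (8 * x0) with hzl | hzl
    · have h1 := near_weight (N := N) ha1 hj hz hzl
        (by positivity : 0 ≤ B1 * (m : ℝ) ^ (N * N))
      refine (hnear j hj z ⟨hz, hzl⟩).trans (h1.trans ?_)
      refine mul_le_mul_of_nonneg_right ?_ hw0
      rw [hAA]
      have : B1 * (m : ℝ) ^ (N * N) * (1 + 8 * x0) ^ (N + 1)
          = B1 * (1 + 8 * x0) ^ (N + 1) * (m : ℝ) ^ (N * N) := by ring
      rw [this]
      gcongr
      linarith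
    · have h1 := far_weight (N := N) ha1 hj (by positivity : 0 < 8 * x0) hzl hB20
      refine (hfar' j hj z hzl).trans (h1.trans ?_)
      refine mul_le_mul_of_nonneg_right ?_ hw0
      rw [hAA]
      have : B2 * (1 + 1 / (8 * x0)) ^ (N + 1)
          ≤ (B1 * (1 + 8 * x0) ^ (N + 1) + B2 * (1 + 1 / (8 * x0)) ^ (N + 1)) := by linarith
      refine this.trans ?_
      exact le_mul_of_one_le_right (by positivity) hmK
  have hAA0 : 0 ≤ AA := by rw [hAA]; positivity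
  have hsym := SymN.radial (E := E d) (N := N) (δ := 2 * aa m) (A := AA)
    (hh.contDiffOn.of_le (by exact_mod_cast le_top)) (fun j hj z hz => by
      rw [iteratedFDerivWithin_eq_iteratedFDeriv (uniqueDiffOn_Ici 0)
        ((hh.of_le (by exact_mod_cast le_top)).contDiffAt) hz,
        norm_iteratedFDeriv_eq_norm_iteratedDeriv]
      exact hall j hj z hz)
  refine hsym.mono le_rfl le_rfl ?_
  have t1 : (2 : ℝ) ^ |2 * aa m| ≤ 2 := by
    rw [abs_of_nonneg (by linarith)]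
    calc (2 : ℝ) ^ (2 * aa m) ≤ (2 : ℝ) ^ (1 : ℝ) :=
          Real.rpow_le_rpow_of_exponent_le (by norm_num) (two_aa_le_one m)
      _ = 2 := Real.rpow_one _
  calc (N.factorial : ℝ) * AA * 2 ^ |2 * aa m| * 4 ^ N ≤ (N.factorial : ℝ) * AA * 2 * 4 ^ N := by
        gcongr
    _ = _ := by rw [hAA, symC, hB1, hB2]; ring

/-- The equation in `z` from `IsProfile`. -/
theorem zeq_of_isProfile (hd : 1 ≤ d) {w : ℝ} {h : ℝ → ℂ} (hh : ContDiff ℝ ∞ h)
    (hP : IsProfile d m w (fun x => h (‖x‖ ^ 2))) : ZEq d m w h := by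
  have hd0 : Differentiable ℝ h := hh.differentiable (by simp)
  have hh1 : ContDiff ℝ ∞ (deriv h) := ((contDiff_infty_iff_deriv (𝕜 := ℝ)).1 hh).2
  have hd1 : Differentiable ℝ (deriv h) := hh1.differentiable (by simp)
  intro z hz
  set x : E d := EuclideanSpace.single (⟨0, hd⟩ : Fin d) (Real.sqrt z) with hx
  have hxn : ‖x‖ ^ 2 = z := by
    simp [hx, Real.sq_sqrt hz]
  have := hP.eqn x
  rw [lap_radial (fun z => (hd0 z).hasDerivAt) (hd1 (‖x‖ ^ 2)).hasDerivAt,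
    eul_radial (hd0 (‖x‖ ^ 2)).hasDerivAt, hxn] at this
  rw [← this]
  ring

/-- **Field `symb` of `UP`.** -/
theorem symb_of_far (hd : 1 ≤ d) {m0 : ℕ} {w : ℕ → ℝ} {q : ℕ → ℝ → ℂ} (m0_pos : 1 ≤ m0)
    (prof : ∀ m, m0 ≤ m → IsProfile d m (w m) (fun x : E d => q m ‖x‖))
    (rad : ∀ m, m0 ≤ m → ∃ h : ℝ → ℂ, ContDiff ℝ ∞ h ∧ ∀ r, q m r = h (r ^ 2))
    (wbd : ∃ W : ℝ, ∀ m, m0 ≤ m → |w m| ≤ W)
    (bd : ∀ b : ℝ, 0 < b → ∃ C : ℝ, ∃ m1 : ℕ, ∀ m, m1 ≤ m → ∀ r ∈ Ioc (0 : ℝ) b,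
      ‖q m r‖ ≤ C ∧ ‖q m r‖ ^ (2 * m) ≤ C)
    (far : ∃ x0 > 0, ∃ M : ℝ, ∃ m1 : ℕ, ∀ m, m1 ≤ m → FarField m x0 M (q m)) :
    ∀ N : ℕ, ∃ C : ℝ, ∃ K : ℕ, ∀ m, m0 ≤ m → ∀ k ≤ N, ∀ x : E d,
      ‖iteratedFDeriv ℝ k (fun x : E d => q m ‖x‖) x‖
        ≤ C * (m : ℝ) ^ K * (1 + ‖x‖) ^ (-(2 * aa m) - (k : ℝ)) := by
  intro N
  obtain ⟨W, hW⟩ := wbd
  obtain ⟨x0, hx0, M, m1, hfar⟩ := far
  have hb : 0 < Real.sqrt (8 * x0) := Real.sqrt_pos.2 (by positivity)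
  obtain ⟨C1, m2, hbd⟩ := bd (Real.sqrt (8 * x0)) hb
  set m3 := max m0 (max m1 m2) with hm3
  -- large `m`
  have hlarge : ∀ m, m3 ≤ m → SymN N (2 * aa m)
      (symC N x0 |M| |C1| |C1| (W + 1) * (m : ℝ) ^ (N * N)) (fun x : E d => q m ‖x‖) := by
    intro m hm
    have hm0 : m0 ≤ m := (le_max_left _ _).trans hm
    have hm1 : m1 ≤ m := ((le_max_left _ _).trans (le_max_right _ _)).trans hm
    have hm2 : m2 ≤ m := ((le_max_right _ _).trans (le_max_right _ _)).trans hm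
    obtain ⟨h, hh, hqh⟩ := rad m hm0
    have hP := prof m hm0
    have hfun : (fun x : E d => q m ‖x‖) = fun x => h (‖x‖ ^ 2) := funext fun x => hqh _
    rw [hfun] at hP ⊢
    have heq := zeq_of_isProfile hd hh hP
    obtain ⟨f, hf, hfb, hqf⟩ := hfar m hm1
    -- bounds on `[0,Z]`
    have hpos : ∀ z ∈ Ioc 0 (8 * x0), ‖h z‖ ≤ C1 ∧ ‖h z‖ ^ (2 * m) ≤ C1 := by
      intro z hz
      have h1 := hbd m hm2 (Real.sqrt z) ⟨Real.sqrt_pos.2 hz.1, Real.sqrt_le_sqrt hz.2⟩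
      rwa [hqh, Real.sq_sqrt hz.1.le] at h1
    have hIcc : ∀ z ∈ Icc 0 (8 * x0), ‖h z‖ ≤ C1 ∧ ‖h z‖ ^ (2 * m) ≤ C1 := by
      intro z hz
      have hcl : z ∈ closure (Ioc 0 (8 * x0)) := by
        rw [closure_Ioc (by positivity : (0 : ℝ) ≠ 8 * x0)]; exact hz
      have c0 := hh.continuous
      have hclosed : IsClosed {z : ℝ | ‖h z‖ ≤ C1 ∧ ‖h z‖ ^ (2 * m) ≤ C1} :=
        (isClosed_le c0.norm continuous_const).inter
          (isClosed_le (c0.norm.pow _) continuous_const)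
      exact (closure_minimal (fun z hz => hpos z hz) hclosed) hcl
    obtain ⟨z0, hz0, hmax⟩ := isCompact_Icc.exists_isMaxOn
      (nonempty_Icc.2 (by positivity : (0 : ℝ) ≤ 8 * x0)) hh.continuous.norm.continuousOn
    have hC10 : 0 ≤ C1 := (norm_nonneg _).trans (hIcc z0 hz0).1
    have hM' : ∀ z : ℂ, x0 < z.re → ‖f z‖ ≤ |M| * ‖z‖ ^ (-(aa m)) := by
      intro z hz
      refine (hfb z hz).trans ?_
      have : 0 ≤ ‖z‖ ^ (-(aa m)) := by positivity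
      exact mul_le_mul_of_nonneg_right (le_abs_self _) this
    have hs := symN_profile (A := ‖h z0‖) (C1 := |C1|) (W := W + 1) hd (m0_pos.trans hm0) hh heq hx0
      (abs_nonneg M)
      ⟨f, hf, hM', fun z hz => by
        have hz0 : 0 < z := by linarith
        have := hqf (Real.sqrt z) (Real.sqrt_pos.2 hz0) (by rw [Real.sq_sqrt hz0.le]; linarith)
        rwa [hqh, Real.sq_sqrt hz0.le] at this⟩
      (norm_nonneg _) (abs_nonneg _) ((hIcc z0 hz0).2.trans (le_abs_self _))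
      (add_le_add (hW m hm0) (aa_le_one m)) (fun z hz => hmax hz) N
    refine hs.mono le_rfl le_rfl ?_
    have hA1 : ‖h z0‖ ≤ |C1| := (hIcc z0 hz0).1.trans (le_abs_self _)
    have hW0 : 0 ≤ W := (abs_nonneg _).trans (hW m hm0)
    unfold symC
    gcongr
  -- small `m`
  have hsmall : ∀ m, m0 ≤ m → ∃ C : ℝ, 0 ≤ C ∧ ∀ k ≤ N, ∀ x : E d,
      ‖iteratedFDeriv ℝ k (fun x : E d => q m ‖x‖) x‖ ≤ C * (1 + ‖x‖) ^ (-(2 * aa m) - (k : ℝ)) := by
    intro m hm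
    have hs := (prof m hm).symbol
    choose C hC using hs
    refine ⟨∑ k ∈ Finset.range (N + 1), |C k|, by positivity, fun k hk x => ?_⟩
    refine (hC k x).trans ?_
    have h0 : 0 ≤ (1 + ‖x‖) ^ (-(2 * aa m) - (k : ℝ)) := by positivity
    refine mul_le_mul_of_nonneg_right ?_ h0
    exact (le_abs_self _).trans (Finset.single_le_sum (f := fun i => |C i|)
      (fun i _ => abs_nonneg _) (Finset.mem_range.2 (by omega)))
  choose! D hD0 hD using hsmall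
  refine ⟨|symC N x0 |M| |C1| |C1| (W + 1)| + ∑ m ∈ Finset.range m3, |D m|, N * N,
    fun m hm k hk x => ?_⟩
  have h0 : 0 ≤ (1 + ‖x‖) ^ (-(2 * aa m) - (k : ℝ)) := by positivity
  have hmR : (1 : ℝ) ≤ m := by exact_mod_cast m0_pos.trans hm
  have hmK : (1 : ℝ) ≤ (m : ℝ) ^ (N * N) := one_le_pow₀ hmR
  have hsum0 : 0 ≤ ∑ m ∈ Finset.range m3, |D m| := Finset.sum_nonneg fun _ _ => abs_nonneg _
  rcases Nat.lt_or_ge m m3 with hlt | hge
  · refine (hD m hm k hk x).trans ?_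
    refine mul_le_mul_of_nonneg_right ?_ h0
    have h1 : D m ≤ ∑ m ∈ Finset.range m3, |D m| :=
      (le_abs_self _).trans (Finset.single_le_sum (f := fun i => |D i|)
        (fun i _ => abs_nonneg _) (Finset.mem_range.2 hlt))
    have h2 : D m ≤ |symC N x0 |M| |C1| |C1| (W + 1)| + ∑ m ∈ Finset.range m3, |D m| := by
      have := abs_nonneg (symC N x0 |M| |C1| |C1| (W + 1))
      linarith
    refine h2.trans ?_
    exact le_mul_of_one_le_right (by positivity) hmK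
  · refine ((hlarge m hge).2 k hk x).trans ?_
    refine mul_le_mul_of_nonneg_right ?_ h0
    have h1 : symC N x0 |M| |C1| |C1| (W + 1) ≤
        |symC N x0 |M| |C1| |C1| (W + 1)| + ∑ m ∈ Finset.range m3, |D m| := by
      have := le_abs_self (symC N x0 |M| |C1| |C1| (W + 1))
      linarith
    gcongr

end Vale.Agent.P139.H644
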