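import Mathlib
import Vale.Agent.P139.H644.SymbUP
import Vale.Agent.P139.H460.FF6

/-!
# Far field : instance of `FarField` from the slow solutions of `H460`, decay with rate `-2a`
-/

open Set Filter Topology Complex
open scoped ContDiff ComplexConjugate
open Vale.Agent.P139.BU

namespace Vale.Agent.P139.H644

variable {d m : ℕ}

theorem FarField.mono {x x' M M' : ℝ} {q : ℝ → ℂ} (h : FarField m x M q) (hx : x ≤ x')
    (hM : M ≤ M') : FarField m x' M' q := by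
  obtain ⟨f, hf, hfb, hq⟩ := h
  refine ⟨f, hf.mono fun z hz => ?_, fun z hz => (hfb z (lt_of_le_of_lt hx hz)).trans ?_,
    fun r hr h => hq r hr (lt_of_le_of_lt hx h)⟩
  · have hz' : x' < z.re := hz
    exact lt_of_le_of_lt hx hz'
  · have : 0 ≤ ‖z‖ ^ (-(aa m)) := by positivity
    exact mul_le_mul_of_nonneg_right hM this

theorem FarField.const_mul {x M : ℝ} {q : ℝ → ℂ} (h : FarField m x M q) (c : ℂ) :
    FarField m x (‖c‖ * M) (fun r => c * q r) := by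
  obtain ⟨f, hf, hfb, hq⟩ := h
  refine ⟨fun z => c * f z, hf.const_mul c, fun z hz => ?_, fun r hr h => by
    simp only []; rw [hq r hr h]⟩
  rw [norm_mul, mul_assoc]
  exact mul_le_mul_of_nonneg_left (hfb z hz) (norm_nonneg _)

/-- Change of the function on a bounded interval. -/
theorem FarField.congr {x M r1 : ℝ} {q q' : ℝ → ℂ} (h : FarField m x M q)
    (he : ∀ r, r1 ≤ r → q' r = q r) : FarField m (max x (r1 ^ 2 / 4)) M q' := by
  obtain ⟨f, hf, hfb, hq⟩ := h.mono (le_max_left x (r1 ^ 2 / 4)) le_rfl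
  refine ⟨f, hf, hfb, fun r hr h => ?_⟩
  rw [he r ?_, hq r hr h]
  have h1 : r1 ^ 2 / 4 < r ^ 2 / 4 := lt_of_le_of_lt (le_max_right _ _) h
  have h2 : r1 ^ 2 < r ^ 2 := by linarith
  exact (lt_of_pow_lt_pow_left₀ 2 hr.le h2).le

theorem norm_zk_le' {a w : ℝ} {z : ℂ} (hz : 0 < z.re) :
    ‖H460.zk a w z‖ ≤ Real.exp (Real.pi * |w|) * ‖z‖ ^ (-a) := by
  have hz0 : z ≠ 0 := by rintro rfl; simp at hz
  have hzn : 0 < ‖z‖ := norm_pos_iff.2 hz0
  unfold H460.zk H460.k0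
  rw [Complex.norm_exp]
  have h1 : ((I * (w:ℂ) - a) * Complex.log z).re = - (a * Real.log ‖z‖) - w * z.arg := by
    simp [Complex.log_re, Complex.log_im]
  rw [h1, Real.rpow_def_of_pos hzn, ← Real.exp_add]
  apply Real.exp_le_exp.2
  have h2 : |w * z.arg| ≤ Real.pi * |w| := by
    rw [abs_mul, mul_comm]
    exact mul_le_mul_of_nonneg_right (Complex.abs_arg_le_pi z) (abs_nonneg _)
  have h3 := neg_le_abs (w * z.arg)
  nlinarith

/-- **The far field of `H460` is a `FarField`**, with constants independent of `m`. -/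
theorem farField_Qf {z1 : ℂ} {x s t Λ θ0 θ L w : ℝ} {ζ : ℂ}
    (hp : H460.Par m 1 z1 x s t Λ θ0 θ L)
    (ha : H460.Adm s t Λ θ0 (H460.bb d (aa m) w) (H460.kk d (aa m) w) ζ) :
    FarField m x (Real.exp (Real.pi * |w|) * θ) (H460.Qf d m 1 (aa m) w ζ z1) := by
  refine ⟨H460.QQ d m 1 (aa m) w ζ z1, fun z hz => ?_, fun z hz => ?_, fun r _ _ => rfl⟩
  · exact (H460.hasDerivAt_QQ hp ha hz).differentiableAt.differentiableWithinAt
  · unfold H460.QQ
    rw [norm_mul]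
    have hx0 := hp.x_pos
    have h1 := norm_zk_le' (a := aa m) (w := w) (z := z) (hx0.trans hz)
    have h2 := H460.norm_slow_le hp ha z hz
    have hθ := hp.θ_nonneg
    calc _ ≤ (Real.exp (Real.pi * |w|) * ‖z‖ ^ (-(aa m))) * θ := by
          gcongr
      _ = _ := by ring

/-- Size of the far field on the real line. -/
theorem norm_Qf_le {z1 : ℂ} {x s t Λ θ0 θ L w : ℝ} {ζ : ℂ}
    (hp : H460.Par m 1 z1 x s t Λ θ0 θ L)
    (ha : H460.Adm s t Λ θ0 (H460.bb d (aa m) w) (H460.kk d (aa m) w) ζ) {r : ℝ}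
    (hr : x < r ^ 2 / 4) :
    ‖H460.Qf d m 1 (aa m) w ζ z1 r‖ ≤ θ * (r ^ 2 / 4) ^ (-(aa m)) := by
  have hx0 := hp.x_pos
  have hr0 : 0 < r ^ 2 / 4 := hx0.trans hr
  unfold H460.Qf H460.QQ
  rw [norm_mul, H460.norm_zk_real hr0]
  have h2 := H460.norm_slow_le hp ha _ (H460.ofReal_mem_HP hr)
  have e : Real.exp (-(aa m * Real.log (r ^ 2 / 4))) = (r ^ 2 / 4) ^ (-(aa m)) := by
    rw [Real.rpow_def_of_pos hr0]; congr 1; ring
  rw [e, mul_comm]
  exact mul_le_mul_of_nonneg_right h2 (by positivity)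

/-- `(r²/4)^{-a} ≤ 4^{2a} (1+r)^{-2a}` for `r ≥ 1`. -/
theorem quarter_rpow_le {a r : ℝ} (ha : 0 ≤ a) (hr : 1 ≤ r) :
    (r ^ 2 / 4) ^ (-a) ≤ 4 ^ (2 * a) * (1 + r) ^ (-(2 * a)) := by
  have hr0 : 0 < r := by linarith
  have e1 : r ^ 2 / 4 = (r / 2) ^ (2 : ℝ) := by
    rw [Real.rpow_two]; ring
  have e2 : (r ^ 2 / 4) ^ (-a) = (r / 2) ^ (-(2 * a)) := by
    rw [e1, ← Real.rpow_mul (by positivity)]; congr 1; ring
  have e3 : (4 : ℝ) ^ (2 * a) * (1 + r) ^ (-(2 * a)) = ((1 + r) / 4) ^ (-(2 * a)) := by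
    rw [Real.div_rpow (by positivity) (by norm_num), Real.rpow_neg (by norm_num : (0:ℝ) ≤ 4),
      div_inv_eq_mul, mul_comm]
  rw [e2, e3]
  exact Real.rpow_le_rpow_of_nonpos (by positivity) (by linarith) (by linarith)

/-- `4^{2 a_m} → 1`. -/
theorem eventually_four_rpow_le {θ θ' : ℝ} (hlt : θ < θ') :
    ∀ᶠ m : ℕ in atTop, θ * 4 ^ (2 * aa m) ≤ θ' := by
  have h1 : Tendsto (fun m : ℕ => 2 * aa m) atTop (𝓝 0) := by
    have h2 : Tendsto (fun m : ℕ => (1 : ℝ) / m) atTop (𝓝 0) := tendsto_one_div_atTop_nhds_zero_nat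
    refine h2.congr fun m => ?_
    unfold aa
    rcases Nat.eq_zero_or_pos m with rfl | hm
    · simp
    · have : (m : ℝ) ≠ 0 := by positivity
      field_simp
  have h3 : Tendsto (fun m : ℕ => θ * (4 : ℝ) ^ (2 * aa m)) atTop (𝓝 (θ * (4 : ℝ) ^ (0 : ℝ))) :=
    ((Real.continuous_const_rpow (by norm_num : (4 : ℝ) ≠ 0)).tendsto 0).comp h1 |>.const_mul θ
  rw [Real.rpow_zero, mul_one] at h3
  exact (h3.eventually_lt_const hlt).mono fun m h => h.le

/-- **Far part of `UP.out`**: a bound `θ (r²/4)^{-a}` with `θ < θ'` gives `θ' (1+r)^{-2a}` for large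
`m`, uniformly. -/
theorem out_far {θ θ' : ℝ} (hθ : 0 ≤ θ) (hlt : θ < θ') :
    ∀ᶠ m : ℕ in atTop, ∀ r : ℝ, 1 ≤ r →
      θ * (r ^ 2 / 4) ^ (-(aa m)) ≤ θ' * (1 + r) ^ (-(2 * aa m)) := by
  filter_upwards [eventually_four_rpow_le hlt] with m hm r hr
  have h1 := quarter_rpow_le (aa_nonneg m) hr
  have h2 : 0 ≤ (1 + r) ^ (-(2 * aa m)) := by positivity
  calc θ * (r ^ 2 / 4) ^ (-(aa m)) ≤ θ * (4 ^ (2 * aa m) * (1 + r) ^ (-(2 * aa m))) := by gcongr
    _ = (θ * 4 ^ (2 * aa m)) * (1 + r) ^ (-(2 * aa m)) := by ring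
    _ ≤ _ := mul_le_mul_of_nonneg_right hm h2

/-- Compact part: `θ < θ'` gives `θ ≤ θ' (1+r)^{-2a}` on `[0,b]` for large `m`. -/
theorem out_near {θ θ' b : ℝ} (hθ : 0 ≤ θ) (hlt : θ < θ') :
    ∀ᶠ m : ℕ in atTop, ∀ r : ℝ, 0 ≤ r → r ≤ b → θ ≤ θ' * (1 + r) ^ (-(2 * aa m)) := by
  have h1 : Tendsto (fun m : ℕ => 2 * aa m) atTop (𝓝 0) := by
    have h2 : Tendsto (fun m : ℕ => (1 : ℝ) / m) atTop (𝓝 0) := tendsto_one_div_atTop_nhds_zero_nat
    refine h2.congr fun m => ?_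
    unfold aa
    rcases Nat.eq_zero_or_pos m with rfl | hm
    · simp
    · have : (m : ℝ) ≠ 0 := by positivity
      field_simp
  have hB : (0 : ℝ) < 1 + |b| := by positivity
  have h3 : Tendsto (fun m : ℕ => θ * (1 + |b|) ^ (2 * aa m)) atTop
      (𝓝 (θ * (1 + |b|) ^ (0 : ℝ))) :=
    ((Real.continuous_const_rpow hB.ne').tendsto 0).comp h1 |>.const_mul θ
  rw [Real.rpow_zero, mul_one] at h3
  filter_upwards [h3.eventually_lt_const hlt] with m hm r hr hrb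
  have ha := aa_nonneg m
  have h4 : (1 + r) ^ (2 * aa m) ≤ (1 + |b|) ^ (2 * aa m) := by
    apply Real.rpow_le_rpow (by positivity) _ (by positivity)
    have := le_abs_self b
    linarith
  have h5 : 0 < (1 + r) ^ (2 * aa m) := by positivity
  rw [Real.rpow_neg (by positivity), ← div_eq_mul_inv, le_div_iff₀ h5]
  calc θ * (1 + r) ^ (2 * aa m) ≤ θ * (1 + |b|) ^ (2 * aa m) := by gcongr
    _ ≤ θ' := hm.le

end Vale.Agent.P139.H644
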