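import Vale.Agent.P139.H644.Sym2

/-!
# Symbol calculus, part 3: symbols of every order, tails of high powers, the potentials
-/

open Set Filter Topology
open scoped ContDiff ComplexConjugate

namespace Vale.Agent.P139.H644

section IsSymSec

variable {E : Type*} [NormedAddCommGroup E] [NormedSpace ℝ E]
variable {F : Type*} [NormedAddCommGroup F] [NormedSpace ℝ F]
variable {G : Type*} [NormedAddCommGroup G] [NormedSpace ℝ G]
variable {H : Type*} [NormedAddCommGroup H] [NormedSpace ℝ H]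
variable {δ δ₁ δ₂ : ℝ} {f : E → F} {g : E → G}

theorem isSym_iff : IsSym δ f ↔ ContDiff ℝ ∞ f ∧
    ∀ k : ℕ, ∃ C : ℝ, ∀ x, ‖iteratedFDeriv ℝ k f x‖ ≤ C * (1 + ‖x‖) ^ (-δ - (k : ℝ)) := by
  constructor
  · intro h
    refine ⟨contDiff_infty.2 fun n => (h n).choose_spec.1, fun k => ?_⟩
    obtain ⟨A, hA⟩ := h k
    exact ⟨A, fun x => hA.2 k le_rfl x⟩
  · rintro ⟨h1, h2⟩ N
    choose C hC using h2
    refine ⟨∑ k ∈ Finset.range (N + 1), |C k|, h1.of_le (by exact_mod_cast le_top), ?_⟩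
    intro k hk x
    refine (hC k x).trans ?_
    have : C k ≤ ∑ k ∈ Finset.range (N + 1), |C k| :=
      (le_abs_self _).trans (Finset.single_le_sum (f := fun k => |C k|)
        (fun i _ => abs_nonneg _) (by simp; omega))
    have hx := one_add_norm_pos x
    gcongr

theorem IsSym.contDiff (h : IsSym δ f) : ContDiff ℝ ∞ f := (isSym_iff.1 h).1

theorem IsSym.bound (h : IsSym δ f) (k : ℕ) :
    ∃ C : ℝ, ∀ x, ‖iteratedFDeriv ℝ k f x‖ ≤ C * (1 + ‖x‖) ^ (-δ - (k : ℝ)) :=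
  (isSym_iff.1 h).2 k

theorem IsSym.mono {δ' : ℝ} (h : IsSym δ f) (hδ : δ' ≤ δ) : IsSym δ' f := fun N => by
  obtain ⟨A, hA⟩ := h N
  exact ⟨A, hA.mono le_rfl hδ le_rfl⟩

theorem IsSym.add {g : E → F} (h1 : IsSym δ f) (h2 : IsSym δ g) :
    IsSym δ (fun y => f y + g y) := fun N => by
  obtain ⟨A, hA⟩ := h1 N
  obtain ⟨B, hB⟩ := h2 N
  exact ⟨_, hA.add hB⟩

theorem IsSym.clm (L : F →L[ℝ] G) (h : IsSym δ f) : IsSym δ (fun y => L (f y)) := fun N => by
  obtain ⟨A, hA⟩ := h N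
  exact ⟨_, hA.clm L⟩

theorem IsSym.neg (h : IsSym δ f) : IsSym δ (fun y => -f y) := by
  simpa using h.clm (-(ContinuousLinearMap.id ℝ F))

theorem IsSym.sub {g : E → F} (h1 : IsSym δ f) (h2 : IsSym δ g) :
    IsSym δ (fun y => f y - g y) := by
  simpa [sub_eq_add_neg] using h1.add h2.neg

theorem IsSym.zero (δ : ℝ) : IsSym δ (fun _ : E => (0 : F)) := fun _ => ⟨0, SymN.zero δ⟩

theorem IsSym.sum {ι : Type*} (s : Finset ι) {f : ι → E → F} (h : ∀ i ∈ s, IsSym δ (f i)) :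
    IsSym δ (fun y => ∑ i ∈ s, f i y) := by
  classical
  induction s using Finset.induction_on with
  | empty => simpa using IsSym.zero δ
  | insert a s ha ih =>
    have h1 := (h a (Finset.mem_insert_self a s)).add
      (ih fun i hi => h i (Finset.mem_insert_of_mem hi))
    simpa only [Finset.sum_insert ha] using h1

theorem IsSym.const (c : F) : IsSym 0 (fun _ : E => c) := fun _ => ⟨_, SymN.const c⟩

theorem IsSym.bilin (B : F →L[ℝ] G →L[ℝ] H) (h1 : IsSym δ₁ f) (h2 : IsSym δ₂ g) :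
    IsSym (δ₁ + δ₂) (fun y => B (f y) (g y)) := fun N => by
  obtain ⟨A, hA⟩ := h1 N
  obtain ⟨A', hA'⟩ := h2 N
  exact ⟨_, hA.bilin B hA'⟩

theorem IsSym.mul {A' : Type*} [NormedRing A'] [NormedAlgebra ℝ A'] {f g : E → A'}
    (h1 : IsSym δ₁ f) (h2 : IsSym δ₂ g) : IsSym (δ₁ + δ₂) (fun y => f y * g y) := fun N => by
  obtain ⟨A, hA⟩ := h1 N
  obtain ⟨B, hB⟩ := h2 N
  exact ⟨_, hA.mul hB⟩

theorem IsSym.const_mul {A' : Type*} [NormedRing A'] [NormedAlgebra ℝ A'] {f : E → A'} (c : A')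
    (h : IsSym δ f) : IsSym δ (fun y => c * f y) := by
  have := (IsSym.const (E := E) c).mul h
  simpa using this

theorem IsSym.pow {A' : Type*} [NormedRing A'] [NormOneClass A'] [NormedAlgebra ℝ A']
    {f : E → A'} (h : IsSym δ f) (n : ℕ) : IsSym (n * δ) (fun y => f y ^ n) := by
  rcases Nat.eq_zero_or_pos n with rfl | hn
  · simpa using IsSym.const (E := E) (1 : A')
  · intro N
    obtain ⟨A, hA⟩ := h N
    exact ⟨_, hA.pow hn⟩

theorem IsSym.conj {f : E → ℂ} (h : IsSym δ f) : IsSym δ (fun y => conj (f y)) := by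
  simpa using h.clm (Complex.conjCLE : ℂ →L[ℝ] ℂ)

theorem IsSym.grad (h : IsSym δ f) : IsSym (δ + 1) (fderiv ℝ f) := fun N => by
  obtain ⟨A, hA⟩ := h (N + 1)
  exact ⟨_, hA.grad⟩

theorem IsSym.grad_apply (h : IsSym δ f) (v : E) :
    IsSym (δ + 1) (fun x => fderiv ℝ f x v) := fun N => by
  obtain ⟨A, hA⟩ := h (N + 1)
  exact ⟨_, hA.grad_apply v⟩

theorem IsSym.euler (h : IsSym δ f) : IsSym δ (fun x => fderiv ℝ f x x) := fun N => by
  obtain ⟨A, hA⟩ := h (N + 1)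
  exact ⟨_, hA.euler⟩

/-- Compactly supported smooth functions are symbols of every order. -/
theorem SymN.of_hasCompactSupport {N : ℕ} (hf : ContDiff ℝ N f) (hc : HasCompactSupport f)
    (δ : ℝ) : ∃ A, SymN N δ A f := by
  have key : ∀ k ≤ N, ∃ C : ℝ, 0 ≤ C ∧ ∀ x, ‖iteratedFDeriv ℝ k f x‖
      ≤ C * (1 + ‖x‖) ^ (-δ - (k : ℝ)) := by
    intro k hk
    have hcont : Continuous (iteratedFDeriv ℝ k f) :=
      hf.continuous_iteratedFDeriv (by exact_mod_cast hk)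
    have hw : Continuous fun x : E => (1 + ‖x‖) ^ (δ + (k : ℝ)) := by
      refine Continuous.rpow_const (by fun_prop) (fun x => Or.inl (one_add_norm_pos x).ne')
    have h1 : Continuous fun x => (1 + ‖x‖) ^ (δ + (k : ℝ)) * ‖iteratedFDeriv ℝ k f x‖ :=
      hw.mul hcont.norm
    have h2 : HasCompactSupport fun x => (1 + ‖x‖) ^ (δ + (k : ℝ)) * ‖iteratedFDeriv ℝ k f x‖ :=
      HasCompactSupport.mul_left (hc.iteratedFDeriv k).norm
    obtain ⟨C, hC⟩ := h2.exists_bound_of_continuous h1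
    refine ⟨C, (norm_nonneg _).trans (hC 0), fun x => ?_⟩
    have hx := one_add_norm_pos x
    have hCx := hC x
    rw [Real.norm_of_nonneg (by positivity)] at hCx
    have e : (1 + ‖x‖) ^ (-δ - (k : ℝ)) = ((1 + ‖x‖) ^ (δ + (k : ℝ)))⁻¹ := by
      rw [← Real.rpow_neg hx.le]; ring_nf
    rw [e, ← div_eq_mul_inv, le_div_iff₀ (by positivity)]
    linarith
  choose! C hC0 hC using key
  refine ⟨∑ k ∈ Finset.range (N + 1), C k, hf, fun k hk x => (hC k hk x).trans ?_⟩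
  have hx := one_add_norm_pos x
  have : C k ≤ ∑ k ∈ Finset.range (N + 1), C k :=
    Finset.single_le_sum (f := C) (fun i hi => hC0 i (by simpa [Nat.lt_succ_iff] using hi))
      (by simp; omega)
  gcongr

theorem IsSym.of_hasCompactSupport (hf : ContDiff ℝ ∞ f) (hc : HasCompactSupport f)
    (δ : ℝ) : IsSym δ f := fun _ =>
  SymN.of_hasCompactSupport (hf.of_le (by exact_mod_cast le_top)) hc δ

/-- A function equal to a constant outside a compact set is a symbol of order `0`. -/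
theorem IsSym.of_const_sub {c : F} (hf : ContDiff ℝ ∞ f)
    (hc : HasCompactSupport (fun x => f x - c)) : IsSym 0 f := by
  have h1 : IsSym 0 (fun x => f x - c) :=
    IsSym.of_hasCompactSupport (hf.sub contDiff_const) hc 0
  have h2 := h1.add (IsSym.const (E := E) c)
  simpa using h2

/-- Products with a factor that vanishes outside a closed region, when the bounds for the other
factor hold only on the region. -/
theorem SymN.of_region {N : ℕ} {A : ℝ} {f : E → F} {U : Set E} (hU : IsOpen U)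
    (hA : 0 ≤ A) (hf : ContDiff ℝ N f) (h0 : ∀ x ∈ U, f x = 0)
    (h : ∀ x ∉ U, PB N x (A * (1 + ‖x‖) ^ (-δ)) ((1 + ‖x‖)⁻¹) f) : SymN N δ A f := by
  rw [symN_iff]
  refine ⟨hf, fun x => ?_⟩
  by_cases hx : x ∈ U
  · intro k hk
    have he : f =ᶠ[𝓝 x] fun _ => (0 : F) := by
      filter_upwards [hU.mem_nhds hx] with y hy using h0 y hy
    have e1 : iteratedFDeriv ℝ k f x = iteratedFDeriv ℝ k (fun _ : E => (0 : F)) x :=
      (he.iteratedFDeriv ℝ k).self_of_nhds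
    have e2 : iteratedFDeriv ℝ k (fun _ : E => (0 : F)) x = 0 := by simp
    rw [e1, e2, norm_zero]
    have := one_add_norm_pos x
    positivity
  · exact h x hx

end IsSymSec

section Tail

variable {E : Type*} [NormedAddCommGroup E] [NormedSpace ℝ E]

theorem pb_conj {N : ℕ} {x : E} {α β : ℝ} {f : E → ℂ} (hf : ContDiff ℝ N f)
    (h : PB N x α β f) : PB N x α β (fun y => conj (f y)) := by
  have h1 := h.clm (Complex.conjCLE : ℂ →L[ℝ] ℂ) hf
  have hα := h.nonneg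
  intro k hk
  have h2 := h1 k hk
  simpa using h2

/-- **Tails of high powers.**  On the complement of the open set `U` the function `Q` is bounded
by `θ (1+‖x‖)^{-δ}` and has symbol bounds with constant `A ≥ θ`; `η` vanishes on `U`.  Then
`η Q^i (conj Q)^j` is a symbol of order `-(i+j)δ` with constant `B θ^{i+j} (1+(i+j)A/θ)^N`. -/
theorem SymN.tail_pow {N : ℕ} {δ A B θ : ℝ} {Q η : E → ℂ} {U : Set E} (hU : IsOpen U)
    (hθ : 0 < θ) (hθA : θ ≤ A) (hQ : ContDiff ℝ N Q)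
    (hQb : ∀ x ∉ U, PB N x (A * (1 + ‖x‖) ^ (-δ)) ((1 + ‖x‖)⁻¹) Q)
    (hQθ : ∀ x ∉ U, ‖Q x‖ ≤ θ * (1 + ‖x‖) ^ (-δ))
    (hη : SymN N 0 B η) (hη0 : ∀ x ∈ U, η x = 0) (i j : ℕ) :
    SymN N (((i + j : ℕ) : ℝ) * δ) (B * θ ^ (i + j) * (1 + ((i + j : ℕ) : ℝ) * (A / θ)) ^ N)
      (fun x => η x * (Q x ^ i * conj (Q x) ^ j)) := by
  have hB := hη.nonneg
  have hA : 0 < A := hθ.trans_le hθA
  have hQc : ContDiff ℝ N (fun y => conj (Q y)) := by
    have := (Complex.conjCLE : ℂ →L[ℝ] ℂ).contDiff.comp hQ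
    exact this
  refine SymN.of_region hU (by positivity) ?_ (fun x hx => by simp [hη0 x hx]) ?_
  · exact hη.1.mul ((hQ.pow i).mul (hQc.pow j))
  · intro x hx
    have hpos := one_add_norm_pos x
    set b : ℝ := (A / θ) * (1 + ‖x‖)⁻¹ with hb
    have hAθ : 1 ≤ A / θ := by rw [le_div_iff₀ hθ]; linarith
    have hb0 : 0 ≤ b := by positivity
    -- exponential type bound for `Q`
    have h1 : PB N x (θ * (1 + ‖x‖) ^ (-δ)) b Q := by
      intro k hk
      rcases Nat.eq_zero_or_pos k with rfl | hk0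
      · simpa using hQθ x hx
      · refine (hQb x hx k hk).trans ?_
        rw [hb, mul_pow]
        have : A / θ ≤ (A / θ) ^ k := le_self_pow₀ hAθ (by omega)
        calc A * (1 + ‖x‖) ^ (-δ) * (1 + ‖x‖)⁻¹ ^ k
            = θ * (1 + ‖x‖) ^ (-δ) * ((A / θ) * (1 + ‖x‖)⁻¹ ^ k) := by field_simp
          _ ≤ θ * (1 + ‖x‖) ^ (-δ) * ((A / θ) ^ k * (1 + ‖x‖)⁻¹ ^ k) := by gcongr
    have h2 := h1.pow hQ i
    have h3 := (pb_conj hQ h1).pow hQc j
    have h4 := h2.mul (hQ.pow i) (hQc.pow j) h3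
    have h5 := (hη.pb x).mul hη.1 ((hQ.pow i).mul (hQc.pow j)) h4
    intro k hk
    refine (h5 k hk).trans ?_
    have e0 : B * (1 + ‖x‖) ^ (-(0 : ℝ)) * ((θ * (1 + ‖x‖) ^ (-δ)) ^ i *
        (θ * (1 + ‖x‖) ^ (-δ)) ^ j) * ((1 + ‖x‖)⁻¹ + (i * b + j * b)) ^ k
        = B * θ ^ (i + j) * (1 + ((i + j : ℕ) : ℝ) * (A / θ)) ^ k *
        (1 + ‖x‖) ^ (-(((i + j : ℕ) : ℝ) * δ)) * (1 + ‖x‖)⁻¹ ^ k := by
      have e1 : (1 + ‖x‖)⁻¹ + (i * b + j * b)
          = (1 + ((i + j : ℕ) : ℝ) * (A / θ)) * (1 + ‖x‖)⁻¹ := by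
        rw [hb]; push_cast; ring
      rw [e1, mul_pow _ _ k]
      have e2 : (1 + ‖x‖) ^ (-(((i + j : ℕ) : ℝ) * δ))
          = ((1 + ‖x‖) ^ (-δ)) ^ i * ((1 + ‖x‖) ^ (-δ)) ^ j := by
        rw [← pow_add, ← Real.rpow_natCast, ← Real.rpow_mul hpos.le]
        congr 1; ring
      rw [e2, mul_pow, mul_pow, pow_add]
      simp only [neg_zero, Real.rpow_zero]
      ring
    rw [e0]
    · have e3 : (1 + ((i + j : ℕ) : ℝ) * (A / θ)) ^ k
          ≤ (1 + ((i + j : ℕ) : ℝ) * (A / θ)) ^ N := by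
        apply pow_le_pow_right₀ _ hk
        have : 0 ≤ ((i + j : ℕ) : ℝ) * (A / θ) := by positivity
        linarith
      calc _ ≤ B * θ ^ (i + j) * (1 + ((i + j : ℕ) : ℝ) * (A / θ)) ^ N *
          (1 + ‖x‖) ^ (-(((i + j : ℕ) : ℝ) * δ)) * (1 + ‖x‖)⁻¹ ^ k := by gcongr
        _ = _ := by ring

end Tail

end Vale.Agent.P139.H644
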