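import Mathlib
import Vale.Agent.P139.H644.PAsm2
import Vale.Agent.P139.H499.RI5
import Vale.Agent.P139.H460.PSpec

/-!
# Assembly of the profile, third part : matching an inner and an outer solution
-/

open Set Filter Topology Complex
open scoped ContDiff ComplexConjugate
open Vale.Agent.P139.BU

namespace Vale.Agent.P139.H644

variable {d m : ℕ}

/-! ### Gluing solutions at a point -/

theorem hasDerivAt_ite_le {F : Type*} [NormedAddCommGroup F] [NormedSpace ℝ F] {fa fb : ℝ → F}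
    {c : ℝ} {r : ℝ} {f' : F} (hc : fa c = fb c) (ha : r ≤ c → HasDerivAt fa f' r)
    (hb : c ≤ r → HasDerivAt fb f' r) :
    HasDerivAt (fun s => if s ≤ c then fa s else fb s) f' r := by
  rcases lt_trichotomy r c with h | h | h
  · refine (ha h.le).congr_of_eventuallyEq ?_
    filter_upwards [Iio_mem_nhds h] with t ht
    have ht' : t < c := ht
    simp [ht'.le]
  · subst h
    have h1 : HasDerivWithinAt (fun s => if s ≤ r then fa s else fb s) f' (Iic r) r :=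
      (ha le_rfl).hasDerivWithinAt.congr (fun t ht => by
        have ht' : t ≤ r := ht
        simp [ht']) (by simp)
    have h2 : HasDerivWithinAt (fun s => if s ≤ r then fa s else fb s) f' (Ici r) r :=
      (hb le_rfl).hasDerivWithinAt.congr (fun t ht => by
        have ht' : r ≤ t := ht
        rcases ht'.eq_or_lt with rfl | h3
        · simp [hc]
        · simp [not_le.2 h3]) (by simp [hc])
    have h3 := h1.union h2
    rw [Iic_union_Ici] at h3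
    exact hasDerivWithinAt_univ.1 h3
  · refine (hb h.le).congr_of_eventuallyEq ?_
    filter_upwards [Ioi_mem_nhds h] with t ht
    have ht' : c < t := ht
    simp [not_le.2 ht']

/-- **Assembly by matching.** An inner solution on `(0,r₁]` and an outer solution on `[r₁,∞)` which
have the same Cauchy data at `r₁` give a profile. -/
theorem isProfile_of_matching {w r1 : ℝ} (hr1 : 0 < r1) {Qa Qa1 Qb Qb1 : ℝ → ℂ}
    (ha : ∀ r ∈ Ioc 0 r1, HasDerivAt Qa (Qa1 r) r)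
    (ha1 : ∀ r ∈ Ioc 0 r1, HasDerivAt Qa1 (radRHS d m w r (Qa r) (Qa1 r)) r)
    (hb : ∀ r, r1 ≤ r → HasDerivAt Qb (Qb1 r) r)
    (hb1 : ∀ r, r1 ≤ r → HasDerivAt Qb1 (radRHS d m w r (Qb r) (Qb1 r)) r)
    (hm0 : Qa r1 = Qb r1) (hm1 : Qa1 r1 = Qb1 r1)
    (hane : ∀ r ∈ Icc 0 r1, Qa r ≠ 0) (hbne : ∀ r, r1 ≤ r → Qb r ≠ 0)
    {δ : ℝ} (hδ : 0 < δ) {U : ℝ → ℂ} (hU : ContDiff ℝ ∞ U) (hQU : ∀ r ∈ Icc 0 δ, Qa r = U (r ^ 2))
    {f : ℂ → ℂ} {x0 M : ℝ} (hx0 : 0 < x0) (hf : DifferentiableOn ℂ f {z | x0 < z.re})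
    (hfb : ∀ z : ℂ, x0 < z.re → ‖f z‖ ≤ M * ‖z‖ ^ (-(aa m)))
    (hQf : ∀ r, r1 ≤ r → x0 < r ^ 2 / 4 → Qb r = f ((r ^ 2 / 4 : ℝ) : ℂ)) :
    ∃ q q1 : ℝ → ℂ, (∀ r ≤ r1, q r = Qa r ∧ q1 r = Qa1 r) ∧
      (∀ r, r1 ≤ r → q r = Qb r ∧ q1 r = Qb1 r) ∧
      (∀ r > 0, HasDerivAt q (q1 r) r) ∧
      (∀ r > 0, HasDerivAt q1 (radRHS d m w r (q r) (q1 r)) r) ∧
      IsProfile d m w (fun x => q ‖x‖) := by
  set q : ℝ → ℂ := fun r => if r ≤ r1 then Qa r else Qb r with hq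
  set q1 : ℝ → ℂ := fun r => if r ≤ r1 then Qa1 r else Qb1 r with hq1
  have eqa : ∀ r ≤ r1, q r = Qa r ∧ q1 r = Qa1 r := fun r hr => by simp [hq, hq1, hr]
  have eqb : ∀ r, r1 ≤ r → q r = Qb r ∧ q1 r = Qb1 r := by
    intro r hr
    rcases hr.eq_or_lt with rfl | h3
    · simp [hq, hq1, hm0, hm1]
    · simp [hq, hq1, not_le.2 h3]
  have hD : ∀ r > 0, HasDerivAt q (q1 r) r := by
    intro r hr
    refine hasDerivAt_ite_le hm0 (fun h => ?_) (fun h => ?_)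
    · rw [(eqa r h).2]; exact ha r ⟨hr, h⟩
    · rw [(eqb r h).2]; exact hb r h
  have hD1 : ∀ r > 0, HasDerivAt q1 (radRHS d m w r (q r) (q1 r)) r := by
    intro r hr
    refine hasDerivAt_ite_le hm1 (fun h => ?_) (fun h => ?_)
    · rw [(eqa r h).2, (eqa r h).1]; exact ha1 r ⟨hr, h⟩
    · rw [(eqb r h).2, (eqb r h).1]; exact hb1 r h
  refine ⟨q, q1, eqa, eqb, hD, hD1, ?_⟩
  have hδ' : 0 < min δ r1 := lt_min hδ hr1
  have hx0' : 0 < max x0 (r1 ^ 2 / 4) := lt_of_lt_of_le hx0 (le_max_left _ _)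
  refine isProfile_of_radial hD hD1 (fun r hr => ?_) hδ' hU (fun r hr => ?_) hx0'
    (hf.mono fun z hz => by
      change x0 < z.re
      have hz' : max x0 (r1 ^ 2 / 4) < z.re := hz
      exact lt_of_le_of_lt (le_max_left _ _) hz')
    (fun z hz => hfb z (lt_of_le_of_lt (le_max_left _ _) hz)) (fun r hr h => ?_)
  · rcases le_total r r1 with h | h
    · rw [(eqa r h).1]; exact hane r ⟨hr, h⟩
    · rw [(eqb r h).1]; exact hbne r h
  · rw [(eqa r (hr.2.trans (min_le_right _ _))).1]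
    exact hQU r ⟨hr.1, hr.2.trans (min_le_left _ _)⟩
  · have h1 : r1 ^ 2 / 4 < r ^ 2 / 4 := lt_of_le_of_lt (le_max_right _ _) h
    have h2 : r1 ≤ r := by
      have h3 : r1 ^ 2 < r ^ 2 := by linarith
      exact (lt_of_pow_lt_pow_left₀ 2 (le_of_lt hr) h3).le
    rw [(eqb r h2).1]
    exact hQf r h2 (lt_of_le_of_lt (le_max_left _ _) h)

/-! ### The truncated equations -/

theorem W1_eq_normSq (m : ℕ) (z : ℂ) : W1 m z = ((normSq z ^ m : ℝ) : ℂ) := by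
  unfold W1
  rw [Complex.mul_conj]
  push_cast
  rfl

theorem W1_eq_norm (m : ℕ) (z : ℂ) : W1 m z = ((‖z‖ ^ (2 * m) : ℝ) : ℂ) := by
  rw [W1_eq_normSq, Complex.normSq_eq_norm_sq, ← pow_mul]

/-- The truncated equation of `H499` coincides with the profile equation where `|Q|² ≤ 2`. -/
theorem rhs_prof_eq {w r : ℝ} (hd : 1 ≤ d) {Q P : ℂ} (h : normSq Q ≤ 2) :
    H499.Hprof m w (r ^ 2) Q (r • P) - (((d - 1 : ℕ) : ℝ) / r) • P = radRHS d m w r Q P := by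
  unfold H499.Hprof radRHS
  rw [H499.capPow_of_le h, W1_eq_normSq, Nat.cast_sub hd]
  simp only [Complex.real_smul]
  unfold aa
  push_cast
  ring

/-- The inner solution from the regular initial value problem of `H499`. -/
theorem prof_inner (hd : 1 ≤ d) (hm : 1 ≤ m) {w q0 r1 : ℝ} (hr1 : 0 < r1)
    (hle : ∀ r ∈ Icc 0 r1, normSq (H499.prof (d - 1) m w q0 r) ≤ 2) :
    (∀ r ∈ Ioc 0 r1, HasDerivAt (H499.prof (d - 1) m w q0) (H499.profD (d - 1) m w q0 r) r) ∧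
    (∀ r ∈ Ioc 0 r1, HasDerivAt (H499.profD (d - 1) m w q0)
      (radRHS d m w r (H499.prof (d - 1) m w q0 r) (H499.profD (d - 1) m w q0 r)) r) ∧
    ∃ U : ℝ → ℂ, ContDiff ℝ ∞ U ∧ ∀ r ∈ Icc 0 r1, H499.prof (d - 1) m w q0 r = U (r ^ 2) := by
  refine ⟨fun r _ => H499.hasDerivAt_prof hm w q0 r, fun r hr => ?_, ?_⟩
  · have h := H499.hasDerivAt_profD (e := d - 1) hm w q0 (ne_of_gt hr.1)
    rwa [rhs_prof_eq hd (hle r ⟨hr.1.le, hr.2⟩)] at h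
  · obtain ⟨U, _, hU, _, _, _, h⟩ := H499.exists_smooth_profile (e := d - 1) hm w q0 hr1 hle
    exact ⟨U, hU, fun r hr => (h r hr).1⟩

/-- From the first order system of `H460` to the profile equation. -/
theorem radODE_rhs {a w : ℝ} {P : ℝ → ℝ} {Q Q1 : ℝ → ℂ} {s : Set ℝ} (ha : a = aa m)
    (hP : ∀ r ∈ s, P r = ‖Q r‖ ^ (2 * m)) (h : H460.RadODE d a w P Q Q1 s) :
    (∀ r ∈ s, HasDerivAt Q (Q1 r) r) ∧
      ∀ r ∈ s, HasDerivAt Q1 (radRHS d m w r (Q r) (Q1 r)) r := by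
  refine ⟨h.h1, fun r hr => ?_⟩
  have h2 := h.h2 r hr
  have e : (-((((d:ℝ) - 1) / r : ℝ) + I * (r / 2 : ℝ)) * Q1 r - ((w:ℂ) + I * a) * Q r + P r * Q r)
      = radRHS d m w r (Q r) (Q1 r) := by
    unfold radRHS
    rw [hP r hr, ha, W1_eq_norm]
  rwa [e] at h2

/-- **Assembly from `prof`.** -/
theorem isProfile_of_prof_matching (hd : 1 ≤ d) (hm : 1 ≤ m) {w q0 r1 : ℝ} (hr1 : 0 < r1)
    (hle : ∀ r ∈ Icc 0 r1, normSq (H499.prof (d - 1) m w q0 r) ≤ 2)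
    (hane : ∀ r ∈ Icc 0 r1, H499.prof (d - 1) m w q0 r ≠ 0)
    {Qb Qb1 : ℝ → ℂ}
    (hb : ∀ r, r1 ≤ r → HasDerivAt Qb (Qb1 r) r)
    (hb1 : ∀ r, r1 ≤ r → HasDerivAt Qb1 (radRHS d m w r (Qb r) (Qb1 r)) r)
    (hbne : ∀ r, r1 ≤ r → Qb r ≠ 0)
    (hm0 : H499.prof (d - 1) m w q0 r1 = Qb r1) (hm1 : H499.profD (d - 1) m w q0 r1 = Qb1 r1)
    {f : ℂ → ℂ} {x0 M : ℝ} (hx0 : 0 < x0) (hf : DifferentiableOn ℂ f {z | x0 < z.re})
    (hfb : ∀ z : ℂ, x0 < z.re → ‖f z‖ ≤ M * ‖z‖ ^ (-(aa m)))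
    (hQf : ∀ r, r1 ≤ r → x0 < r ^ 2 / 4 → Qb r = f ((r ^ 2 / 4 : ℝ) : ℂ)) :
    ∃ q q1 : ℝ → ℂ, (∀ r ≤ r1, q r = H499.prof (d - 1) m w q0 r ∧
        q1 r = H499.profD (d - 1) m w q0 r) ∧
      (∀ r, r1 ≤ r → q r = Qb r ∧ q1 r = Qb1 r) ∧
      (∀ r > 0, HasDerivAt q (q1 r) r) ∧
      (∀ r > 0, HasDerivAt q1 (radRHS d m w r (q r) (q1 r)) r) ∧
      IsProfile d m w (fun x => q ‖x‖) := by
  obtain ⟨h1, h2, U, hU, h3⟩ := prof_inner hd hm hr1 hle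
  exact isProfile_of_matching hr1 h1 h2 hb hb1 hm0 hm1 hane hbne hr1 hU h3 hx0 hf hfb hQf

end Vale.Agent.P139.H644
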