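import Mathlib

/-!
# Symbol calculus on a normed space

`PB N x α β f` : pointwise exponential-type bounds `‖D^k f(x)‖ ≤ α β^k`, `k ≤ N`.
`SymN N δ A f` : symbol bounds of finite order `‖D^k f(x)‖ ≤ A (1+‖x‖)^(-δ-k)`, `k ≤ N`.
`IsSym δ f`    : symbol bounds of every order.
-/

open Set Filter Topology
open scoped ContDiff

namespace Vale.Agent.P139.H644

variable {E : Type*} [NormedAddCommGroup E] [NormedSpace ℝ E]
variable {F : Type*} [NormedAddCommGroup F] [NormedSpace ℝ F]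
variable {G : Type*} [NormedAddCommGroup G] [NormedSpace ℝ G]
variable {H : Type*} [NormedAddCommGroup H] [NormedSpace ℝ H]

/-- Pointwise bounds of exponential type for the derivatives up to order `N`. -/
def PB (N : ℕ) (x : E) (α β : ℝ) (f : E → F) : Prop :=
  ∀ k ≤ N, ‖iteratedFDeriv ℝ k f x‖ ≤ α * β ^ k

/-- Symbol bounds of order `-δ` for the derivatives up to order `N`. -/
def SymN (N : ℕ) (δ A : ℝ) (f : E → F) : Prop :=
  ContDiff ℝ N f ∧ ∀ k ≤ N, ∀ x, ‖iteratedFDeriv ℝ k f x‖ ≤ A * (1 + ‖x‖) ^ (-δ - (k : ℝ))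

/-- Symbols of order `-δ`. -/
def IsSym (δ : ℝ) (f : E → F) : Prop := ∀ N : ℕ, ∃ A : ℝ, SymN N δ A f

omit [NormedSpace ℝ E] in
theorem one_add_norm_pos (x : E) : 0 < 1 + ‖x‖ := by positivity

omit [NormedSpace ℝ E] in
theorem one_le_one_add_norm (x : E) : 1 ≤ 1 + ‖x‖ := by
  have := norm_nonneg x
  linarith

/-! ### Pointwise bounds -/

section PBsec

variable {N : ℕ} {x : E} {α β α₁ β₁ α₂ β₂ : ℝ} {f : E → F} {g : E → G}

theorem PB.nonneg (h : PB N x α β f) : 0 ≤ α := by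
  have := h 0 (Nat.zero_le _)
  simp at this
  exact le_trans (norm_nonneg _) this

theorem PB.norm_le (h : PB N x α β f) : ‖f x‖ ≤ α := by
  have := h 0 (Nat.zero_le _)
  simpa using this

theorem PB.mono {N' : ℕ} {α' β' : ℝ} (h : PB N x α β f) (hN : N' ≤ N) (hα : α ≤ α')
    (hβ0 : 0 ≤ β) (hβ : β ≤ β') : PB N' x α' β' f := by
  intro k hk
  have h0 : 0 ≤ α := h.nonneg
  calc ‖iteratedFDeriv ℝ k f x‖ ≤ α * β ^ k := h k (hk.trans hN)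
    _ ≤ α' * β' ^ k := by gcongr; exact h0.trans hα

theorem PB.add (hf : ContDiff ℝ N f) {g : E → F} (hg : ContDiff ℝ N g)
    (h1 : PB N x α₁ β f) (h2 : PB N x α₂ β g) : PB N x (α₁ + α₂) β (fun y => f y + g y) := by
  intro k hk
  have hf' : ContDiffAt ℝ k f x := (hf.of_le (by exact_mod_cast hk)).contDiffAt
  have hg' : ContDiffAt ℝ k g x := (hg.of_le (by exact_mod_cast hk)).contDiffAt
  have : iteratedFDeriv ℝ k (fun y => f y + g y) x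
      = iteratedFDeriv ℝ k f x + iteratedFDeriv ℝ k g x := by
    exact iteratedFDeriv_add_apply hf' hg'
  rw [this]
  calc _ ≤ ‖iteratedFDeriv ℝ k f x‖ + ‖iteratedFDeriv ℝ k g x‖ := norm_add_le _ _
    _ ≤ α₁ * β ^ k + α₂ * β ^ k := add_le_add (h1 k hk) (h2 k hk)
    _ = _ := by ring

theorem PB.clm (L : F →L[ℝ] G) (hf : ContDiff ℝ N f) (h : PB N x α β f) :
    PB N x (‖L‖ * α) β (fun y => L (f y)) := by
  intro k hk
  have hf' : ContDiffAt ℝ k f x := (hf.of_le (by exact_mod_cast hk)).contDiffAt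
  have := L.norm_iteratedFDeriv_comp_left hf' (le_refl _)
  calc ‖iteratedFDeriv ℝ k (fun y => L (f y)) x‖ ≤ ‖L‖ * ‖iteratedFDeriv ℝ k f x‖ := this
    _ ≤ ‖L‖ * (α * β ^ k) := by gcongr; exact h k hk
    _ = _ := by ring

theorem PB.const (c : F) : PB N x ‖c‖ 0 (fun _ : E => c) := by
  intro k hk
  rcases Nat.eq_zero_or_pos k with rfl | hk0
  · simp
  · rw [iteratedFDeriv_const_of_ne (by omega)]
    simp [hk0.ne']

theorem PB.bilin (B : F →L[ℝ] G →L[ℝ] H) (hf : ContDiff ℝ N f) (hg : ContDiff ℝ N g)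
    (h1 : PB N x α₁ β₁ f) (h2 : PB N x α₂ β₂ g) :
    PB N x (‖B‖ * (α₁ * α₂)) (β₁ + β₂) (fun y => B (f y) (g y)) := by
  intro k hk
  have hkN : (k : WithTop ℕ∞) ≤ (N : WithTop ℕ∞) := by exact_mod_cast hk
  have := B.norm_iteratedFDeriv_le_of_bilinear hf hg x hkN
  refine this.trans ?_
  rw [add_pow, mul_assoc]
  gcongr
  rw [Finset.mul_sum]
  apply Finset.sum_le_sum
  intro i hi
  have hik : i ≤ k := by simpa [Nat.lt_succ_iff] using hi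
  have e1 := h1 i (hik.trans hk)
  have e2 := h2 (k - i) ((Nat.sub_le _ _).trans hk)
  have n1 : 0 ≤ α₁ * β₁ ^ i := (norm_nonneg _).trans e1
  calc (k.choose i : ℝ) * ‖iteratedFDeriv ℝ i f x‖ * ‖iteratedFDeriv ℝ (k - i) g x‖
      ≤ (k.choose i : ℝ) * (α₁ * β₁ ^ i) * (α₂ * β₂ ^ (k - i)) := by gcongr
    _ = _ := by ring

theorem PB.mul {A : Type*} [NormedRing A] [NormedAlgebra ℝ A] {f g : E → A}
    (hf : ContDiff ℝ N f) (hg : ContDiff ℝ N g)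
    (h1 : PB N x α₁ β₁ f) (h2 : PB N x α₂ β₂ g) :
    PB N x (α₁ * α₂) (β₁ + β₂) (fun y => f y * g y) := by
  intro k hk
  have hkN : (k : WithTop ℕ∞) ≤ (N : WithTop ℕ∞) := by exact_mod_cast hk
  have := norm_iteratedFDeriv_mul_le hf hg x hkN
  refine this.trans ?_
  rw [add_pow, Finset.mul_sum]
  apply Finset.sum_le_sum
  intro i hi
  have hik : i ≤ k := by simpa [Nat.lt_succ_iff] using hi
  have e1 := h1 i (hik.trans hk)
  have e2 := h2 (k - i) ((Nat.sub_le _ _).trans hk)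
  have n1 : 0 ≤ α₁ * β₁ ^ i := (norm_nonneg _).trans e1
  calc (k.choose i : ℝ) * ‖iteratedFDeriv ℝ i f x‖ * ‖iteratedFDeriv ℝ (k - i) g x‖
      ≤ (k.choose i : ℝ) * (α₁ * β₁ ^ i) * (α₂ * β₂ ^ (k - i)) := by gcongr
    _ = _ := by ring

theorem PB.pow {A : Type*} [NormedRing A] [NormOneClass A] [NormedAlgebra ℝ A] {f : E → A}
    (hf : ContDiff ℝ N f) (h : PB N x α β f) (n : ℕ) :
    PB N x (α ^ n) (n * β) (fun y => f y ^ n) := by
  induction n with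
  | zero =>
    have := PB.const (N := N) (x := x) (1 : A)
    simpa using this
  | succ n ih =>
    have h1 : ContDiff ℝ N (fun y => f y ^ n) := hf.pow n
    have h2 := ih.mul h1 hf h
    have e : ((n + 1 : ℕ) : ℝ) * β = n * β + β := by push_cast; ring
    rw [e, pow_succ]
    simpa only [pow_succ] using h2

end PBsec

/-! ### Symbols -/

section SymSec

variable {N : ℕ} {δ δ₁ δ₂ A A₁ A₂ : ℝ} {f : E → F} {g : E → G}

omit [NormedSpace ℝ E] in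
theorem rpow_split (x : E) (δ : ℝ) (k : ℕ) :
    (1 + ‖x‖) ^ (-δ - (k : ℝ)) = (1 + ‖x‖) ^ (-δ) * ((1 + ‖x‖)⁻¹) ^ k := by
  rw [Real.rpow_sub (one_add_norm_pos x), Real.rpow_natCast, inv_pow]
  rfl

theorem symN_iff : SymN N δ A f ↔ ContDiff ℝ N f ∧
    ∀ x, PB N x (A * (1 + ‖x‖) ^ (-δ)) ((1 + ‖x‖)⁻¹) f := by
  constructor
  · rintro ⟨h1, h2⟩
    refine ⟨h1, fun x k hk => ?_⟩
    have := h2 k hk x
    rwa [rpow_split, ← mul_assoc] at this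
  · rintro ⟨h1, h2⟩
    refine ⟨h1, fun k hk x => ?_⟩
    have := h2 x k hk
    rwa [rpow_split, ← mul_assoc]

theorem SymN.contDiff (h : SymN N δ A f) : ContDiff ℝ N f := h.1

theorem SymN.pb (h : SymN N δ A f) (x : E) :
    PB N x (A * (1 + ‖x‖) ^ (-δ)) ((1 + ‖x‖)⁻¹) f := (symN_iff.1 h).2 x

theorem SymN.norm_le (h : SymN N δ A f) (x : E) : ‖f x‖ ≤ A * (1 + ‖x‖) ^ (-δ) :=
  (h.pb x).norm_le

theorem SymN.nonneg (h : SymN N δ A f) : 0 ≤ A := by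
  have := (h.pb 0).nonneg
  simpa using this

theorem SymN.mono {N' : ℕ} {δ' A' : ℝ} (h : SymN N δ A f) (hN : N' ≤ N) (hδ : δ' ≤ δ)
    (hA : A ≤ A') : SymN N' δ' A' f := by
  refine ⟨h.1.of_le (by exact_mod_cast hN), fun k hk x => ?_⟩
  refine (h.2 k (hk.trans hN) x).trans ?_
  have h0 := h.nonneg
  have : (1 + ‖x‖) ^ (-δ - (k : ℝ)) ≤ (1 + ‖x‖) ^ (-δ' - (k : ℝ)) :=
    Real.rpow_le_rpow_of_exponent_le (one_le_one_add_norm x) (by linarith)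
  gcongr
  exact h0.trans hA

theorem SymN.add {g : E → F} (h1 : SymN N δ A₁ f) (h2 : SymN N δ A₂ g) :
    SymN N δ (A₁ + A₂) (fun y => f y + g y) := by
  rw [symN_iff]
  refine ⟨h1.1.add h2.1, fun x => ?_⟩
  have := (h1.pb x).add h1.1 h2.1 (h2.pb x)
  rwa [← add_mul] at this

theorem SymN.clm (L : F →L[ℝ] G) (h : SymN N δ A f) :
    SymN N δ (‖L‖ * A) (fun y => L (f y)) := by
  rw [symN_iff]
  refine ⟨L.contDiff.comp h.1, fun x => ?_⟩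
  have := (h.pb x).clm L h.1
  rwa [← mul_assoc] at this

theorem SymN.const (c : F) : SymN N 0 ‖c‖ (fun _ : E => c) := by
  rw [symN_iff]
  refine ⟨contDiff_const, fun x => ?_⟩
  have h := PB.const (N := N) (x := x) c
  refine h.mono le_rfl ?_ le_rfl ?_
  · simp
  · have := one_add_norm_pos x
    positivity

theorem SymN.zero (δ : ℝ) : SymN N δ 0 (fun _ : E => (0 : F)) := by
  refine ⟨contDiff_const, fun k _ x => ?_⟩
  have : iteratedFDeriv ℝ k (fun _ : E => (0 : F)) x = 0 := by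
    simp
  rw [this]
  simp

theorem SymN.bilin (B : F →L[ℝ] G →L[ℝ] H) (h1 : SymN N δ₁ A₁ f) (h2 : SymN N δ₂ A₂ g) :
    SymN N (δ₁ + δ₂) (‖B‖ * (A₁ * A₂) * 2 ^ N) (fun y => B (f y) (g y)) := by
  rw [symN_iff]
  refine ⟨(B.isBoundedBilinearMap.contDiff).comp (h1.1.prodMk h2.1), fun x => ?_⟩
  have h := (h1.pb x).bilin B h1.1 h2.1 (h2.pb x)
  intro k hk
  have hx := one_add_norm_pos x
  refine (h k hk).trans ?_
  have e : (1 + ‖x‖)⁻¹ + (1 + ‖x‖)⁻¹ = 2 * (1 + ‖x‖)⁻¹ := by ring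
  rw [e, mul_pow]
  have e2 : (1 + ‖x‖) ^ (-(δ₁ + δ₂)) = (1 + ‖x‖) ^ (-δ₁) * (1 + ‖x‖) ^ (-δ₂) := by
    rw [← Real.rpow_add hx]; ring_nf
  rw [e2]
  have h2k : (2 : ℝ) ^ k ≤ 2 ^ N := pow_le_pow_right₀ (by norm_num) hk
  have n1 := h1.nonneg
  have n2 := h2.nonneg
  calc ‖B‖ * (A₁ * (1 + ‖x‖) ^ (-δ₁) * (A₂ * (1 + ‖x‖) ^ (-δ₂))) * (2 ^ k * (1 + ‖x‖)⁻¹ ^ k)
      = ‖B‖ * (A₁ * A₂) * 2 ^ k * ((1 + ‖x‖) ^ (-δ₁) * (1 + ‖x‖) ^ (-δ₂)) * (1 + ‖x‖)⁻¹ ^ k := by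
        ring
    _ ≤ ‖B‖ * (A₁ * A₂) * 2 ^ N * ((1 + ‖x‖) ^ (-δ₁) * (1 + ‖x‖) ^ (-δ₂)) * (1 + ‖x‖)⁻¹ ^ k := by
        gcongr

theorem SymN.mul {A' : Type*} [NormedRing A'] [NormedAlgebra ℝ A'] {f g : E → A'}
    (h1 : SymN N δ₁ A₁ f) (h2 : SymN N δ₂ A₂ g) :
    SymN N (δ₁ + δ₂) (A₁ * A₂ * 2 ^ N) (fun y => f y * g y) := by
  rw [symN_iff]
  refine ⟨h1.1.mul h2.1, fun x => ?_⟩
  have h := (h1.pb x).mul h1.1 h2.1 (h2.pb x)
  intro k hk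
  have hx := one_add_norm_pos x
  refine (h k hk).trans ?_
  have e : (1 + ‖x‖)⁻¹ + (1 + ‖x‖)⁻¹ = 2 * (1 + ‖x‖)⁻¹ := by ring
  rw [e, mul_pow]
  have e2 : (1 + ‖x‖) ^ (-(δ₁ + δ₂)) = (1 + ‖x‖) ^ (-δ₁) * (1 + ‖x‖) ^ (-δ₂) := by
    rw [← Real.rpow_add hx]; ring_nf
  rw [e2]
  have h2k : (2 : ℝ) ^ k ≤ 2 ^ N := pow_le_pow_right₀ (by norm_num) hk
  have n1 := h1.nonneg
  have n2 := h2.nonneg
  calc (A₁ * (1 + ‖x‖) ^ (-δ₁) * (A₂ * (1 + ‖x‖) ^ (-δ₂))) * (2 ^ k * (1 + ‖x‖)⁻¹ ^ k)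
      = (A₁ * A₂) * 2 ^ k * ((1 + ‖x‖) ^ (-δ₁) * (1 + ‖x‖) ^ (-δ₂)) * (1 + ‖x‖)⁻¹ ^ k := by
        ring
    _ ≤ (A₁ * A₂) * 2 ^ N * ((1 + ‖x‖) ^ (-δ₁) * (1 + ‖x‖) ^ (-δ₂)) * (1 + ‖x‖)⁻¹ ^ k := by
        gcongr

/-- Powers, with the sharp dependence on the exponent: the constant is `A^n n^N` (not `C^n` with
a `C` depending on `N`). -/
theorem SymN.pow {A' : Type*} [NormedRing A'] [NormOneClass A'] [NormedAlgebra ℝ A'] {f : E → A'}
    (h : SymN N δ A f) {n : ℕ} (hn : 1 ≤ n) :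
    SymN N (n * δ) (A ^ n * n ^ N) (fun y => f y ^ n) := by
  rw [symN_iff]
  refine ⟨h.1.pow n, fun x => ?_⟩
  have h' := (h.pb x).pow h.1 n
  intro k hk
  have hx := one_add_norm_pos x
  refine (h' k hk).trans ?_
  have hA := h.nonneg
  rw [mul_pow, mul_pow]
  have e2 : ((1 + ‖x‖) ^ (-δ)) ^ n = (1 + ‖x‖) ^ (-(n * δ)) := by
    rw [← Real.rpow_natCast, ← Real.rpow_mul hx.le]
    congr 1; ring
  rw [e2]
  have hn1 : (1 : ℝ) ≤ n := by exact_mod_cast hn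
  have h2k : (n : ℝ) ^ k ≤ n ^ N := pow_le_pow_right₀ hn1 hk
  calc A ^ n * (1 + ‖x‖) ^ (-(n * δ)) * ((n : ℝ) ^ k * (1 + ‖x‖)⁻¹ ^ k)
      = A ^ n * (n : ℝ) ^ k * (1 + ‖x‖) ^ (-(n * δ)) * (1 + ‖x‖)⁻¹ ^ k := by ring
    _ ≤ A ^ n * (n : ℝ) ^ N * (1 + ‖x‖) ^ (-(n * δ)) * (1 + ‖x‖)⁻¹ ^ k := by gcongr

theorem SymN.grad (h : SymN (N + 1) δ A f) : SymN N (δ + 1) A (fderiv ℝ f) := by
  refine ⟨h.1.fderiv_right (by push_cast; exact le_rfl), fun k hk x => ?_⟩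
  rw [norm_iteratedFDeriv_fderiv]
  have := h.2 (k + 1) (by omega) x
  convert this using 3
  push_cast
  ring

theorem SymN.grad_apply (h : SymN (N + 1) δ A f) (v : E) :
    SymN N (δ + 1) (‖v‖ * A) (fun x => fderiv ℝ f x v) := by
  have h1 := h.grad
  have h2 := h1.clm (ContinuousLinearMap.apply ℝ F v)
  have h3 : ‖ContinuousLinearMap.apply ℝ F v‖ ≤ ‖v‖ := by
    refine ContinuousLinearMap.opNorm_le_bound _ (norm_nonneg _) (fun L => ?_)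
    simp only [ContinuousLinearMap.apply_apply]
    rw [mul_comm]
    exact L.le_opNorm v
  exact h2.mono le_rfl le_rfl (mul_le_mul_of_nonneg_right h3 h.nonneg)

theorem norm_iteratedFDeriv_id_le (k : ℕ) (x : E) :
    ‖iteratedFDeriv ℝ k (fun y : E => y) x‖ ≤ 1 * (1 + ‖x‖) ^ (-(-1 : ℝ) - (k : ℝ)) := by
  have hx := one_add_norm_pos x
  match k with
  | 0 =>
    simp
  | 1 =>
    have : ‖iteratedFDeriv ℝ 1 (fun y : E => y) x‖ = ‖fderiv ℝ (fun y : E => y) x‖ := by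
      rw [← norm_iteratedFDeriv_fderiv (n := 0)]
      simp
    rw [this]
    have h2 : fderiv ℝ (fun y : E => y) x = ContinuousLinearMap.id ℝ E := fderiv_fun_id
    rw [h2]
    simpa using ContinuousLinearMap.norm_id_le
  | (k + 2) =>
    have : ‖iteratedFDeriv ℝ (k + 2) (fun y : E => y) x‖
        = ‖iteratedFDeriv ℝ (k + 1) (fderiv ℝ (fun y : E => y)) x‖ := by
      rw [← norm_iteratedFDeriv_fderiv]
    rw [this]
    have h2 : fderiv ℝ (fun y : E => y) = fun _ => ContinuousLinearMap.id ℝ E := by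
      ext1 x; exact fderiv_fun_id
    rw [h2, iteratedFDeriv_const_of_ne (by omega)]
    simp only [Pi.zero_apply, norm_zero]
    positivity

theorem SymN.id : SymN N (-1) 1 (fun y : E => y) :=
  ⟨contDiff_id, fun k _ x => norm_iteratedFDeriv_id_le k x⟩

/-- The Euler field `x · ∇ f` is a symbol of the same order. -/
theorem SymN.euler (h : SymN (N + 1) δ A f) :
    SymN N δ (A * 2 ^ N) (fun x => fderiv ℝ f x x) := by
  have h1 := h.grad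
  have h2 := h1.bilin (ContinuousLinearMap.id ℝ (E →L[ℝ] F)) (SymN.id (N := N) (E := E))
  have h3 : ‖ContinuousLinearMap.id ℝ (E →L[ℝ] F)‖ ≤ 1 := ContinuousLinearMap.norm_id_le
  have hA := h.nonneg
  have h4 : ‖ContinuousLinearMap.id ℝ (E →L[ℝ] F)‖ * (A * 1) * 2 ^ N ≤ A * 2 ^ N := by
    have : (0 : ℝ) ≤ A * 2 ^ N := by positivity
    nlinarith
  have h5 := h2.mono (N' := N) (δ' := δ) le_rfl (by linarith) h4
  simpa using h5

/-- Dilation by a factor `M ≥ 1` preserves symbols of order `0`, uniformly in `M`. -/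
theorem SymN.dilate (h : SymN N 0 A f) {M : ℝ} (hM : 1 ≤ M) :
    SymN N 0 A (fun x => f (M⁻¹ • x)) := by
  have hM0 : 0 < M := by linarith
  refine ⟨h.1.comp (contDiff_const_smul _), fun k hk x => ?_⟩
  have hc : ContDiff ℝ k f := h.1.of_le (by exact_mod_cast hk)
  have e : iteratedFDeriv ℝ k (fun x => f (M⁻¹ • x)) x
      = M⁻¹ ^ k • iteratedFDeriv ℝ k f (M⁻¹ • x) :=
    congrFun (iteratedFDeriv_comp_const_smul (𝕜 := ℝ) M⁻¹ hc) x
  rw [e, norm_smul]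
  have h1 := h.2 k hk (M⁻¹ • x)
  have hA := h.nonneg
  have hx := one_add_norm_pos x
  have n1 : ‖M⁻¹ ^ k‖ = (M⁻¹) ^ k := by
    rw [Real.norm_of_nonneg]; positivity
  rw [n1]
  have n2 : ‖M⁻¹ • x‖ = M⁻¹ * ‖x‖ := by
    rw [norm_smul, Real.norm_of_nonneg]; positivity
  rw [n2] at h1
  have e1 : (1 + M⁻¹ * ‖x‖) ^ (-(0 : ℝ) - (k : ℝ)) = ((1 + M⁻¹ * ‖x‖) ^ k)⁻¹ := by
    rw [neg_zero, zero_sub, Real.rpow_neg (by positivity), Real.rpow_natCast]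
  have e2 : (1 + ‖x‖) ^ (-(0 : ℝ) - (k : ℝ)) = ((1 + ‖x‖) ^ k)⁻¹ := by
    rw [neg_zero, zero_sub, Real.rpow_neg (by positivity), Real.rpow_natCast]
  rw [e1] at h1
  rw [e2]
  calc M⁻¹ ^ k * ‖iteratedFDeriv ℝ k f (M⁻¹ • x)‖
      ≤ M⁻¹ ^ k * (A * ((1 + M⁻¹ * ‖x‖) ^ k)⁻¹) := by gcongr
    _ = A * ((M * (1 + M⁻¹ * ‖x‖)) ^ k)⁻¹ := by
        rw [mul_pow, mul_inv, ← inv_pow]; ring
    _ ≤ A * ((1 + ‖x‖) ^ k)⁻¹ := by
        have : 1 + ‖x‖ ≤ M * (1 + M⁻¹ * ‖x‖) := by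
          have : M * (1 + M⁻¹ * ‖x‖) = M + ‖x‖ := by field_simp
          rw [this]; linarith
        gcongr

end SymSec

end Vale.Agent.P139.H644
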