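import Vale.Agent.P139.H644.Sym

/-!
# Symbol calculus, part 2: radial functions, symbols of every order, tails
-/

open Set Filter Topology
open scoped ContDiff ComplexConjugate

namespace Vale.Agent.P139.H644

section Radial

variable {E : Type*} [NormedAddCommGroup E] [InnerProductSpace ℝ E]
variable {F : Type*} [NormedAddCommGroup F] [NormedSpace ℝ F]

/-- Derivatives of `‖x‖^2`. -/
theorem norm_iteratedFDeriv_normSq_le {k : ℕ} (hk : 1 ≤ k) (x : E) :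
    ‖iteratedFDeriv ℝ k (fun y : E => ‖y‖ ^ 2) x‖
      ≤ (1 + ‖x‖ ^ 2) * (2 * (Real.sqrt (1 + ‖x‖ ^ 2))⁻¹) ^ k := by
  set ρ := Real.sqrt (1 + ‖x‖ ^ 2) with hρ
  have hρ2 : ρ ^ 2 = 1 + ‖x‖ ^ 2 := Real.sq_sqrt (by positivity)
  have hρ1 : 1 ≤ ρ := by
    rw [hρ]; apply Real.one_le_sqrt.2; nlinarith [sq_nonneg ‖x‖]
  have hρ0 : 0 < ρ := by linarith
  have hxρ : ‖x‖ ≤ ρ := by
    rw [hρ]; apply Real.le_sqrt_of_sq_le; linarith
  have hid : ContDiff ℝ (k : WithTop ℕ∞) (fun y : E => y) := contDiff_id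
  have e0 : (fun y : E => ‖y‖ ^ 2) = fun y => innerSL ℝ y y := by
    ext y; simp [innerSL_apply_apply]
  have hB : ‖(innerSL ℝ : E →L[ℝ] E →L[ℝ] ℝ)‖ ≤ 1 := norm_innerSL_le ℝ
  have key := (innerSL ℝ : E →L[ℝ] E →L[ℝ] ℝ).norm_iteratedFDeriv_le_of_bilinear_of_le_one
    hid hid x (n := k) le_rfl hB
  rw [← e0] at key
  refine key.trans ?_
  have hD : ∀ i : ℕ, 2 ≤ i → ‖iteratedFDeriv ℝ i (fun y : E => y) x‖ = 0 := by
    intro i hi
    obtain ⟨j, rfl⟩ : ∃ j, i = j + 2 := ⟨i - 2, by omega⟩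
    have : ‖iteratedFDeriv ℝ (j + 2) (fun y : E => y) x‖
        = ‖iteratedFDeriv ℝ (j + 1) (fderiv ℝ (fun y : E => y)) x‖ := by
      rw [← norm_iteratedFDeriv_fderiv]
    rw [this]
    have h2 : fderiv ℝ (fun y : E => y) = fun _ => ContinuousLinearMap.id ℝ E := by
      ext1 x; exact fderiv_fun_id
    rw [h2, iteratedFDeriv_const_of_ne (by omega)]
    simp
  have hD0 : ‖iteratedFDeriv ℝ 0 (fun y : E => y) x‖ = ‖x‖ := by simp
  have hD1 : ‖iteratedFDeriv ℝ 1 (fun y : E => y) x‖ ≤ 1 := by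
    have : ‖iteratedFDeriv ℝ 1 (fun y : E => y) x‖ = ‖fderiv ℝ (fun y : E => y) x‖ := by
      rw [← norm_iteratedFDeriv_fderiv (n := 0)]
      simp
    rw [this, fderiv_fun_id]
    exact ContinuousLinearMap.norm_id_le
  rcases Nat.lt_or_ge k 2 with h2 | h2
  · have hk1 : k = 1 := by omega
    subst hk1
    simp only [Finset.sum_range_succ, Finset.sum_range_zero, Nat.choose_zero_right, Nat.cast_one,
      one_mul, Nat.choose_self, zero_add, pow_one, Nat.sub_zero, hD0]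
    rw [← hρ2]
    have : ρ ^ 2 * (2 * ρ⁻¹) = 2 * ρ := by field_simp
    rw [this]
    nlinarith [norm_nonneg x, norm_nonneg (iteratedFDeriv ℝ 1 (fun y : E => y) x)]
  · rcases Nat.lt_or_ge k 3 with h3 | h3
    · have hk2 : k = 2 := by omega
      subst hk2
      simp only [Finset.sum_range_succ, Finset.sum_range_zero, Nat.choose_zero_right, Nat.cast_one,
        one_mul, Nat.choose_self, zero_add, Nat.sub_zero, hD0, hD 2 le_rfl,
        Nat.choose_one_right, Nat.cast_ofNat, mul_zero, zero_mul, add_zero]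
      rw [← hρ2]
      have : ρ ^ 2 * (2 * ρ⁻¹) ^ 2 = 4 := by field_simp; norm_num
      rw [this]
      have hD1' : ‖iteratedFDeriv ℝ (2 - 1) (fun y : E => y) x‖ ≤ 1 := hD1
      nlinarith [norm_nonneg (iteratedFDeriv ℝ 1 (fun y : E => y) x),
        norm_nonneg (iteratedFDeriv ℝ (2 - 1) (fun y : E => y) x)]
    · have : ∑ i ∈ Finset.range (k + 1), (k.choose i : ℝ) *
          ‖iteratedFDeriv ℝ i (fun y : E => y) x‖ *
          ‖iteratedFDeriv ℝ (k - i) (fun y : E => y) x‖ = 0 := by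
        apply Finset.sum_eq_zero
        intro i hi
        have hik : i ≤ k := by simpa [Nat.lt_succ_iff] using hi
        rcases Nat.lt_or_ge i 2 with h | h
        · rw [hD (k - i) (by omega)]; simp
        · rw [hD i h]; simp
      rw [this]
      positivity

/-- Composition with a weight: `‖D^i h(φ(x))‖ ≤ C c^{-i}` and `‖D^i φ(x)‖ ≤ c D^i` give
`‖D^k (h ∘ φ)(x)‖ ≤ k! C D^k`. -/
theorem norm_iteratedFDeriv_comp_le_weight {h : ℝ → F} {φ : E → ℝ} {s : Set ℝ} {k : ℕ}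
    (hs : UniqueDiffOn ℝ s) (hscale : ∀ c : ℝ, 0 < c → ∀ y ∈ s, c * y ∈ s)
    (hh : ContDiffOn ℝ k h s) (hφ : ContDiff ℝ k φ) (hm : ∀ x, φ x ∈ s) (x : E)
    {C D c : ℝ} (hc : 0 < c)
    (hC : ∀ i ≤ k, ‖iteratedFDerivWithin ℝ i h s (φ x)‖ ≤ C * (c⁻¹) ^ i)
    (hD : ∀ i, 1 ≤ i → i ≤ k → ‖iteratedFDeriv ℝ i φ x‖ ≤ c * D ^ i) :
    ‖iteratedFDeriv ℝ k (fun y => h (φ y)) x‖ ≤ k.factorial * C * D ^ k := by
  -- the scaled functions
  let L : ℝ →L[ℝ] ℝ := c • ContinuousLinearMap.id ℝ ℝ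
  have hL : ∀ y, L y = c * y := fun y => by simp [L]
  have hLn : ‖L‖ ≤ c := by
    refine ContinuousLinearMap.opNorm_le_bound _ hc.le (fun y => ?_)
    rw [hL, norm_mul, Real.norm_of_nonneg hc.le]
  have hpre : L ⁻¹' s = s := by
    ext y
    simp only [mem_preimage, hL]
    constructor
    · intro hy
      have := hscale c⁻¹ (by positivity) _ hy
      rwa [inv_mul_cancel_left₀ hc.ne'] at this
    · intro hy; exact hscale c hc y hy
  have e1 : (fun y => h (φ y)) = (h ∘ L) ∘ (fun y => c⁻¹ * φ y) := by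
    ext y
    simp [hL, mul_inv_cancel_left₀ hc.ne']
  rw [e1]
  have hg : ContDiffOn ℝ k (h ∘ L) s := by
    have := hh.comp (L.contDiff.contDiffOn (s := L ⁻¹' s)) (fun y hy => hy)
    rwa [hpre] at this
  have hf : ContDiff ℝ k (fun y => c⁻¹ * φ y) := contDiff_const.mul hφ
  have hx : c⁻¹ * φ x ∈ s := hscale _ (by positivity) _ (hm x)
  have := norm_iteratedFDerivWithin_comp_le (g := h ∘ L) (f := fun y => c⁻¹ * φ y)
    (n := k) (s := univ) (t := s) (x := x) (N := k) hg hf.contDiffOn le_rfl hs uniqueDiffOn_univ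
    (fun y _ => hscale _ (by positivity) _ (hm y)) (mem_univ x) (C := C) (D := D) ?_ ?_
  · simpa only [iteratedFDerivWithin_univ] using this
  · intro i hi
    have hi' : (i : WithTop ℕ∞) ≤ k := by exact_mod_cast hi
    have hLx : L (c⁻¹ * φ x) = φ x := by rw [hL, mul_inv_cancel_left₀ hc.ne']
    have e2 := L.iteratedFDerivWithin_comp_right hh hs (by rw [hpre]; exact hs)
      (x := c⁻¹ * φ x) (by rw [hLx]; exact hm x) hi'
    rw [hpre] at e2
    rw [e2]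
    refine (ContinuousMultilinearMap.norm_compContinuousLinearMap_le _ _).trans ?_
    rw [hLx, Finset.prod_const, Finset.card_fin]
    have h3 := hC i hi
    calc ‖iteratedFDerivWithin ℝ i h s (φ x)‖ * ‖L‖ ^ i
        ≤ (C * c⁻¹ ^ i) * c ^ i := by
          gcongr
          exact (norm_nonneg _).trans h3
      _ = C := by
          rw [mul_assoc, ← mul_pow, inv_mul_cancel₀ hc.ne']; simp
  · intro i hi1 hi
    rw [iteratedFDerivWithin_univ]
    have hi' : (i : WithTop ℕ∞) ≤ k := by exact_mod_cast hi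
    have hφi : ContDiffAt ℝ i φ x := (hφ.of_le hi').contDiffAt
    have e3 : iteratedFDeriv ℝ i (fun y => c⁻¹ * φ y) x = c⁻¹ • iteratedFDeriv ℝ i φ x := by
      exact iteratedFDeriv_const_smul_apply (a := c⁻¹) hφi
    rw [e3, norm_smul, Real.norm_of_nonneg (by positivity)]
    calc c⁻¹ * ‖iteratedFDeriv ℝ i φ x‖ ≤ c⁻¹ * (c * D ^ i) := by
          gcongr; exact hD i hi1 hi
      _ = D ^ i := by rw [inv_mul_cancel_left₀ hc.ne']

omit [InnerProductSpace ℝ E] in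
theorem sqrt_ge (x : E) : (1 + ‖x‖) / 2 ≤ Real.sqrt (1 + ‖x‖ ^ 2) := by
  apply Real.le_sqrt_of_sq_le
  nlinarith [sq_nonneg (1 - ‖x‖), norm_nonneg x]

omit [InnerProductSpace ℝ E] in
theorem sqrt_le (x : E) : Real.sqrt (1 + ‖x‖ ^ 2) ≤ 1 + ‖x‖ := by
  rw [Real.sqrt_le_left (by positivity)]
  nlinarith [norm_nonneg x]

/-- **Radial symbols.**  If `h` is `C^N` on `[0,∞)` with
`‖h^{(j)}(z)‖ ≤ A (1+z)^{-δ/2-j}`, then `x ↦ h(‖x‖²)` is a symbol of order `-δ`. -/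
theorem SymN.radial {N : ℕ} {δ A : ℝ} {h : ℝ → F} (hh : ContDiffOn ℝ N h (Ici 0))
    (hb : ∀ j ≤ N, ∀ z : ℝ, 0 ≤ z →
      ‖iteratedFDerivWithin ℝ j h (Ici 0) z‖ ≤ A * (1 + z) ^ (-(δ / 2) - (j : ℝ))) :
    SymN N δ (N.factorial * A * 2 ^ |δ| * 4 ^ N) (fun x : E => h (‖x‖ ^ 2)) := by
  have hφ : ContDiff ℝ N (fun x : E => ‖x‖ ^ 2) := contDiff_norm_sq ℝ
  have hA : 0 ≤ A := by
    have := (norm_nonneg _).trans (hb 0 (Nat.zero_le _) 0 le_rfl)
    simpa using this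
  refine ⟨?_, fun k hk x => ?_⟩
  · have := hh.comp (t := Ici 0) (s := univ) hφ.contDiffOn (fun y _ => by simp)
    exact contDiffOn_univ.1 this
  · set ρ := Real.sqrt (1 + ‖x‖ ^ 2) with hρ
    have hρ2 : ρ ^ 2 = 1 + ‖x‖ ^ 2 := Real.sq_sqrt (by positivity)
    have hρ1 : 1 ≤ ρ := by
      rw [hρ]; apply Real.one_le_sqrt.2; nlinarith [sq_nonneg ‖x‖]
    have hρ0 : 0 < ρ := by linarith
    have hkN : (k : WithTop ℕ∞) ≤ N := by exact_mod_cast hk
    have key := norm_iteratedFDeriv_comp_le_weight (h := h) (φ := fun x : E => ‖x‖ ^ 2)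
      (s := Ici 0) (k := k) (uniqueDiffOn_Ici 0) (fun c hc y hy => mul_nonneg hc.le hy)
      (hh.of_le hkN) (hφ.of_le hkN) (fun x => by simp) x
      (C := A * ρ ^ (-δ)) (D := 2 * ρ⁻¹) (c := 1 + ‖x‖ ^ 2) (by positivity) ?_ ?_
    · refine key.trans ?_
      have hx := one_add_norm_pos x
      have hfac : (k.factorial : ℝ) ≤ N.factorial := by exact_mod_cast Nat.factorial_le hk
      -- ρ^{-δ} ≤ 2^{|δ|} (1+‖x‖)^{-δ}
      have h1 : ρ ^ (-δ) ≤ 2 ^ |δ| * (1 + ‖x‖) ^ (-δ) := by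
        rcases le_total 0 δ with hδ | hδ
        · rw [abs_of_nonneg hδ]
          have : ρ ^ (-δ) ≤ ((1 + ‖x‖) / 2) ^ (-δ) :=
            Real.rpow_le_rpow_of_nonpos (by positivity) (sqrt_ge x) (by linarith)
          refine this.trans (le_of_eq ?_)
          rw [Real.div_rpow hx.le (by norm_num), Real.rpow_neg (by norm_num : (0:ℝ) ≤ 2)]
          field_simp
        · rw [abs_of_nonpos hδ]
          have : ρ ^ (-δ) ≤ (1 + ‖x‖) ^ (-δ) :=
            Real.rpow_le_rpow hρ0.le (sqrt_le x) (by linarith)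
          have h2 : (1 : ℝ) ≤ 2 ^ (-δ) := Real.one_le_rpow (by norm_num) (by linarith)
          have h3 : 0 ≤ (1 + ‖x‖) ^ (-δ) := by positivity
          nlinarith
      have h2 : (2 * ρ⁻¹) ^ k ≤ 4 ^ N * (1 + ‖x‖)⁻¹ ^ k := by
        have : 2 * ρ⁻¹ ≤ 4 * (1 + ‖x‖)⁻¹ := by
          have h4 : ρ⁻¹ ≤ ((1 + ‖x‖) / 2)⁻¹ := inv_anti₀ (by positivity) (sqrt_ge x)
          have h5 : ((1 + ‖x‖) / 2)⁻¹ = 2 * (1 + ‖x‖)⁻¹ := by
            rw [inv_div]; rfl
          rw [h5] at h4; linarith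
        calc (2 * ρ⁻¹) ^ k ≤ (4 * (1 + ‖x‖)⁻¹) ^ k := by gcongr
          _ = 4 ^ k * (1 + ‖x‖)⁻¹ ^ k := by rw [mul_pow]
          _ ≤ 4 ^ N * (1 + ‖x‖)⁻¹ ^ k := by
            gcongr
            norm_num
      rw [rpow_split]
      calc (k.factorial : ℝ) * (A * ρ ^ (-δ)) * (2 * ρ⁻¹) ^ k
          ≤ N.factorial * (A * (2 ^ |δ| * (1 + ‖x‖) ^ (-δ))) * (4 ^ N * (1 + ‖x‖)⁻¹ ^ k) := by
            gcongr
        _ = _ := by ring
    · intro i hi
      have := hb i (hi.trans hk) (‖x‖ ^ 2) (by positivity)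
      refine this.trans (le_of_eq ?_)
      have e1 : (1 + ‖x‖ ^ 2) ^ (-(δ / 2) - (i : ℝ)) = ρ ^ (-δ) * (1 + ‖x‖ ^ 2)⁻¹ ^ i := by
        rw [Real.rpow_sub (by positivity), Real.rpow_natCast, ← hρ2, ← Real.rpow_natCast ρ 2,
          ← Real.rpow_mul hρ0.le, div_eq_mul_inv, inv_pow]
        congr 2
        push_cast; ring
      rw [e1]; ring
    · intro i hi1 _
      exact norm_iteratedFDeriv_normSq_le hi1 x

end Radial

end Vale.Agent.P139.H644
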